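import Vale.Agent.P237.Small.N5W4.Scalar
import Vale.Agent.P237.Cal.BoxVertex2
import Vale.Agent.P237.Cal.PackTabs
import Vale.Agent.P237.Cal.VFamEq
import Vale.Agent.P237.Cal.FastCell

/-!
# P237: data of one checked box
-/

open Vale.Agent.P237.Cal AtomCert CellCert FamAtoms StateTable CellEnds BoxHand BoxEnds CellGlue2 BoxVertex PackGlue2 HeadSplit TailRed

set_option linter.all false

namespace Vale.Agent.P237.Small.N5W4

/-- Data. -/
noncomputable def z52 : Fn := ([nat_lit 0, nat_lit 0, nat_lit 0, nat_lit 0, nat_lit 0, nat_lit 0, nat_lit 0, nat_lit 0, nat_lit 0, nat_lit 0, nat_lit 0, nat_lit 0, nat_lit 0, nat_lit 0, nat_lit 0, nat_lit 0, nat_lit 0, nat_lit 0, nat_lit 0, nat_lit 0, nat_lit 0, nat_lit 0, nat_lit 0, nat_lit 0, nat_lit 0, nat_lit 0, nat_lit 0, nat_lit 0, nat_lit 0, nat_lit 0, nat_lit 0, nat_lit 0, nat_lit 0, nat_lit 0, nat_lit 0, nat_lit 0, nat_lit 0, nat_lit 0, nat_lit 0, nat_lit 0, nat_lit 0, nat_lit 0, nat_lit 0, nat_lit 0, nat_lit 0, nat_lit 0, nat_lit 0, nat_lit 0, nat_lit 0, nat_lit 0, nat_lit 0, nat_lit 0], [nat_lit 0, nat_lit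 0, nat_lit 0, nat_lit 0, nat_lit 0, nat_lit 0, nat_lit 0, nat_lit 0, nat_lit 0, nat_lit 0, nat_lit 0, nat_lit 0, nat_lit 0, nat_lit 0, nat_lit 0, nat_lit 0, nat_lit 0, nat_lit 0, nat_lit 0, nat_lit 0, nat_lit 0, nat_lit 0, nat_lit 0, nat_lit 0, nat_lit 0, nat_lit 0, nat_lit 0, nat_lit 0, nat_lit 0, nat_lit 0, nat_lit 0, nat_lit 0, nat_lit 0, nat_lit 0, nat_lit 0, nat_lit 0, nat_lit 0, nat_lit 0, nat_lit 0, nat_lit 0, nat_lit 0, nat_lit 0, nat_lit 0, nat_lit 0, nat_lit 0, nat_lit 0, nat_lit 0, nat_lit 0, nat_lit 0, nat_lit 0, nat_lit 0, nat_lit 0], [nat_lit 0, nat_lit 0, nat_lit 0, nat_lit 0, nat_lit 0, nat_lit 0, nat_lit 0, nat_lit 0, nat_lit 0, nat_lit 0, nat_lit 0, nat_lit 0, nat_lit 0, nat_lit 0, nat_lit 0, nat_lit 0, nat_lit 0, nat_lit 0, nat_lit 0, nat_lit 0, nat_lit 0, nat_lit 0, nat_lit 0, nat_lit 0, nat_lit 0, nat_lit 0, nat_lit 0, nat_lit 0, nat_lit 0, nat_lit 0, nat_lit 0, nat_lit 0, nat_lit 0, nat_lit 0, nat_lit 0, nat_lit 0, nat_lit 0, nat_lit 0, nat_lit 0, nat_lit 0, nat_lit 0, nat_lit 0, nat_lit 0, nat_lit 0, nat_lit 0, nat_lit 0,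 nat_lit 0, nat_lit 0, nat_lit 0, nat_lit 0, nat_lit 0, nat_lit 0])

/-- Data. -/
noncomputable def z57 : Fn := ([nat_lit 0, nat_lit 0, nat_lit 0, nat_lit 0, nat_lit 0, nat_lit 0, nat_lit 0, nat_lit 0, nat_lit 0, nat_lit 0, nat_lit 0, nat_lit 0, nat_lit 0, nat_lit 0, nat_lit 0, nat_lit 0, nat_lit 0, nat_lit 0, nat_lit 0, nat_lit 0, nat_lit 0, nat_lit 0, nat_lit 0, nat_lit 0, nat_lit 0, nat_lit 0, nat_lit 0, nat_lit 0, nat_lit 0, nat_lit 0, nat_lit 0, nat_lit 0, nat_lit 0, nat_lit 0, nat_lit 0, nat_lit 0, nat_lit 0, nat_lit 0, nat_lit 0, nat_lit 0, nat_lit 0, nat_lit 0, nat_lit 0, nat_lit 0, nat_lit 0, nat_lit 0, nat_lit 0, nat_lit 0, nat_lit 0, nat_lit 0, nat_lit 0, nat_lit 0, nat_lit 0, nat_lit 0, nat_lit 0, nat_lit 0, nat_lit 0], [nat_lit 0, nat_lit 0, nat_lit 0, nat_lit 0, nat_lit 0, nat_lit 0, nat_lit 0, nat_lit 0, nat_lit 0, nat_lit 0, nat_lit 0, nat_lit 0, nat_lit 0, nat_lit 0, nat_lit 0, nat_lit 0, nat_lit 0, nat_lit 0, nat_lit 0, nat_lit 0, nat_lit 0, nat_lit 0, nat_lit 0, nat_lit 0, nat_lit 0, nat_lit 0, nat_lit 0, nat_lit 0, nat_lit 0,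 nat_lit 0, nat_lit 0, nat_lit 0, nat_lit 0, nat_lit 0, nat_lit 0, nat_lit 0, nat_lit 0, nat_lit 0, nat_lit 0, nat_lit 0, nat_lit 0, nat_lit 0, nat_lit 0, nat_lit 0, nat_lit 0, nat_lit 0, nat_lit 0, nat_lit 0, nat_lit 0, nat_lit 0, nat_lit 0, nat_lit 0, nat_lit 0, nat_lit 0, nat_lit 0, nat_lit 0, nat_lit 0], [nat_lit 0, nat_lit 0, nat_lit 0, nat_lit 0, nat_lit 0, nat_lit 0, nat_lit 0, nat_lit 0, nat_lit 0, nat_lit 0, nat_lit 0, nat_lit 0, nat_lit 0, nat_lit 0, nat_lit 0, nat_lit 0, nat_lit 0, nat_lit 0, nat_lit 0, nat_lit 0, nat_lit 0, nat_lit 0, nat_lit 0, nat_lit 0, nat_lit 0, nat_lit 0, nat_lit 0, nat_lit 0, nat_lit 0, nat_lit 0, nat_lit 0, nat_lit 0, nat_lit 0, nat_lit 0, nat_lit 0, nat_lit 0, nat_lit 0, nat_lit 0, nat_lit 0, nat_lit 0, nat_lit 0, nat_lit 0, nat_lit 0, nat_lit 0, nat_lit 0, nat_lit 0, nat_lit 0, nat_lit 0, nat_lit 0, nat_lit 0, nat_lit 0, nat_lit 0, nat_lit 0, nat_lit 0, nat_lit 0, nat_lit 0, nat_lit 0])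

/-- Data. -/
noncomputable def z64 : Fn := ([nat_lit 0, nat_lit 0, nat_lit 0, nat_lit 0, nat_lit 0, nat_lit 0, nat_lit 0, nat_lit 0, nat_lit 0, nat_lit 0, nat_lit 0, nat_lit 0, nat_lit 0, nat_lit 0, nat_lit 0, nat_lit 0, nat_lit 0, nat_lit 0, nat_lit 0, nat_lit 0, nat_lit 0, nat_lit 0, nat_lit 0, nat_lit 0, nat_lit 0, nat_lit 0, nat_lit 0, nat_lit 0, nat_lit 0, nat_lit 0, nat_lit 0, nat_lit 0, nat_lit 0, nat_lit 0, nat_lit 0, nat_lit 0, nat_lit 0, nat_lit 0, nat_lit 0, nat_lit 0, nat_lit 0, nat_lit 0, nat_lit 0, nat_lit 0, nat_lit 0, nat_lit 0, nat_lit 0, nat_lit 0, nat_lit 0, nat_lit 0, nat_lit 0, nat_lit 0, nat_lit 0, nat_lit 0, nat_lit 0, nat_lit 0, nat_lit 0, nat_lit 0, nat_lit 0, nat_lit 0, nat_lit 0, nat_lit 0, nat_lit 0, nat_lit 0], [nat_lit 0, nat_lit 0, nat_lit 0, nat_lit 0, nat_lit 0, nat_lit 0, nat_lit 0, nat_lit 0, nat_lit 0, nat_lit 0, nat_lit 0, nat_lit 0, nat_lit 0, nat_lit 0, nat_lit 0, nat_lit 0, nat_lit 0, nat_lit 0, nat_lit 0, nat_lit 0, nat_lit 0, nat_lit 0, nat_lit 0, nat_lit 0, nat_lit 0, nat_lit 0, nat_lit 0, nat_lit 0, nat_lit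 0, nat_lit 0, nat_lit 0, nat_lit 0, nat_lit 0, nat_lit 0, nat_lit 0, nat_lit 0, nat_lit 0, nat_lit 0, nat_lit 0, nat_lit 0, nat_lit 0, nat_lit 0, nat_lit 0, nat_lit 0, nat_lit 0, nat_lit 0, nat_lit 0, nat_lit 0, nat_lit 0, nat_lit 0, nat_lit 0, nat_lit 0, nat_lit 0, nat_lit 0, nat_lit 0, nat_lit 0, nat_lit 0, nat_lit 0, nat_lit 0, nat_lit 0, nat_lit 0, nat_lit 0, nat_lit 0, nat_lit 0], [nat_lit 0, nat_lit 0, nat_lit 0, nat_lit 0, nat_lit 0, nat_lit 0, nat_lit 0, nat_lit 0, nat_lit 0, nat_lit 0, nat_lit 0, nat_lit 0, nat_lit 0, nat_lit 0, nat_lit 0, nat_lit 0, nat_lit 0, nat_lit 0, nat_lit 0, nat_lit 0, nat_lit 0, nat_lit 0, nat_lit 0, nat_lit 0, nat_lit 0, nat_lit 0, nat_lit 0, nat_lit 0, nat_lit 0, nat_lit 0, nat_lit 0, nat_lit 0, nat_lit 0, nat_lit 0, nat_lit 0, nat_lit 0, nat_lit 0, nat_lit 0, nat_lit 0, nat_lit 0, nat_lit 0, nat_lit 0, nat_lit 0, nat_lit 0, nat_lit 0, nat_lit 0, nat_lit 0, nat_lit 0, nat_lit 0, nat_lit 0, nat_lit 0, nat_lit 0, nat_lit 0, nat_lit 0, nat_lit 0, nat_lit 0, nat_lit 0, nat_lit 0, nat_lit 0, nat_lit 0, nat_lit 0,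 nat_lit 0, nat_lit 0, nat_lit 0])

/-- Data. -/
noncomputable def B : List (ℕ × ℕ) := [(0, 0), (0, 5), (0, 7), (0, 10), (1, 2), (1, 6), (1, 7), (1, 9), (1, 10), (1, 12), (1, 17), (2, 7), (2, 9), (2, 10), (2, 11), (2, 14), (3, 7), (3, 8), (3, 9), (3, 11), (3, 12), (3, 13), (3, 14), (4, 7), (4, 9), (4, 11), (4, 13), (4, 16), (5, 9), (5, 11), (5, 15), (6, 9), (6, 11), (6, 17), (7, 11), (7, 13), (8, 11), (8, 13), (8, 15), (9, 15), (10, 15), (10, 16), (11, 15), (12, 15), (12, 17), (12, 19), (13, 19), (14, 19), (15, 19), (16, 19), (20, 23), (20, 25), (20, 27), (21, 27), (22, 27), (23, 27), (24, 27)]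

/-- Data. -/
noncomputable def Bh : List (ℕ × ℕ) := [(0, 5), (0, 6), (0, 7), (0, 9), (0, 10), (0, 11), (0, 12), (0, 14), (0, 17), (1, 5), (1, 7), (1, 8), (1, 9), (1, 10), (1, 11), (1, 12), (1, 13), (1, 14), (1, 17), (2, 0), (2, 7), (2, 9), (2, 11), (2, 12), (2, 13), (2, 14), (2, 16), (3, 2), (3, 7), (3, 9), (3, 11), (3, 12), (3, 13), (3, 14), (3, 15), (4, 9), (4, 11), (4, 13), (4, 16), (4, 17), (5, 9), (5, 11), (5, 13), (5, 15), (6, 11), (6, 13), (6, 15), (7, 11), (7, 15), (8, 15), (8, 16), (9, 15), (10, 15), (10, 17), (10, 19), (11, 19), (12, 19), (13, 19), (14, 19), (18, 23), (18, 25), (18, 27), (20, 27), (22, 27)]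

/-- Data. -/
noncomputable def Bt : List (ℕ × ℕ) := [(0, 0), (0, 1), (0, 2), (0, 3), (0, 4), (0, 5), (0, 6), (0, 7), (0, 8), (0, 9), (0, 10), (0, 11), (0, 12), (0, 13), (0, 14), (0, 15), (0, 16), (0, 17), (0, 18), (0, 19), (0, 20), (0, 21), (0, 22), (0, 23), (0, 24), (0, 25), (0, 26), (1, 1), (1, 2), (1, 3), (1, 4), (1, 5), (1, 6), (1, 7), (1, 8), (1, 9), (1, 10), (1, 11), (1, 12), (1, 13), (1, 14), (1, 15), (1, 16), (1, 17), (1, 18), (1, 19), (1, 20), (1, 21), (1, 22), (1, 23), (1, 24), (1, 25)]

/-- Data. -/
noncomputable def atom0 : AtomTab := ([(0, 0, 0), (0, 1, 2), (0, 0, 2), (0, 2, 4)], [], (0, 0), [0, 0, 0, 0, 0, 0, 0])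

/-- Data. -/
noncomputable def atom1 : AtomTab := ([(0, 0, 5), (0, 1, 7), (-5, 0, 7), (35, 2, 9)], [(35, 0, 9), (-315, 2, 11), (70, 0, 9), (-630, 2, 11), (-945, 2, 11), (3465, 4, 13)], (0, 11), [-4725, 155925, -675675, 675675, 0, 0, 0])

/-- Data. -/
noncomputable def atom2 : AtomTab := ([(0, 0, 7), (0, 1, 9), (-7, 0, 9), (63, 2, 11)], [(63, 0, 11), (-693, 2, 13), (126, 0, 11), (-1386, 2, 13), (-2079, 2, 13), (9009, 4, 15)], (0, 13), [-10395, 405405, -2027025, 2297295, 0, 0, 0])

/-- Data. -/
noncomputable def atom3 : AtomTab := ([(0, 0, 10), (0, 1, 12), (-10, 0, 12), (120, 2, 14)], [(120, 0, 14), (-1680, 2, 16), (240, 0, 14), (-3360, 2, 16), (-5040, 2, 16), (26880, 4, 18)], (0, 16), [-25200, 1209600, -7257600, 9676800, 0, 0, 0])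

/-- Data. -/
noncomputable def atom4 : AtomTab := ([(0, 0, 2), (-2, 1, 4), (-4, 1, 4), (8, 3, 6)], [(8, 1, 6), (16, 1, 6), (-48, 3, 8), (16, 1, 6), (32, 1, 6), (-96, 3, 8), (48, 1, 6), (-144, 3, 8), (-192, 3, 8), (384, 5, 10)], (1, 8), [-5040, 40320, -80640, 46080, 0, 0, 0])

/-- Data. -/
noncomputable def atom5 : AtomTab := ([(0, 0, 6), (-6, 1, 8), (-12, 1, 8), (48, 3, 10)], [(48, 1, 10), (96, 1, 10), (-480, 3, 12), (96, 1, 10), (192, 1, 10), (-960, 3, 12), (288, 1, 10), (-1440, 3, 12), (-1920, 3, 12), (5760, 5, 14)], (1, 12), [-50400, 604800, -1693440, 1290240, 0, 0, 0])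

/-- Data. -/
noncomputable def atom6 : AtomTab := ([(0, 0, 7), (-7, 1, 9), (-14, 1, 9), (63, 3, 11)], [(63, 1, 11), (126, 1, 11), (-693, 3, 13), (126, 1, 11), (252, 1, 11), (-1386, 3, 13), (378, 1, 11), (-2079, 3, 13), (-2772, 3, 13), (9009, 5, 15)], (1, 13), [-72765, 945945, -2837835, 2297295, 0, 0, 0])

/-- Data. -/
noncomputable def atom7 : AtomTab := ([(0, 0, 9), (-9, 1, 11), (-18, 1, 11), (99, 3, 13)], [(99, 1, 13), (198, 1, 13), (-1287, 3, 15), (198, 1, 13), (396, 1, 13), (-2574, 3, 15), (594, 1, 13), (-3861, 3, 15), (-5148, 3, 15), (19305, 5, 17)], (1, 15), [-135135, 2027025, -6891885, 6235515, 0, 0, 0])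

/-- Data. -/
noncomputable def atom8 : AtomTab := ([(0, 0, 10), (-10, 1, 12), (-20, 1, 12), (120, 3, 14)], [(120, 1, 14), (240, 1, 14), (-1680, 3, 16), (240, 1, 14), (480, 1, 14), (-3360, 3, 16), (720, 1, 14), (-5040, 3, 16), (-6720, 3, 16), (26880, 5, 18)], (1, 16), [-176400, 2822400, -10160640, 9676800, 0, 0, 0])

/-- Data. -/
noncomputable def atom9 : AtomTab := ([(0, 0, 12), (-12, 1, 14), (-24, 1, 14), (168, 3, 16)], [(168, 1, 16), (336, 1, 16), (-2688, 3, 18), (336, 1, 16), (672, 1, 16), (-5376, 3, 18), (1008, 1, 16), (-8064, 3, 18), (-10752, 3, 18), (48384, 5, 20)], (1, 18), [-282240, 5080320, -20321280, 21288960, 0, 0, 0])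

/-- Data. -/
noncomputable def atom10 : AtomTab := ([(0, 0, 17), (-17, 1, 19), (-34, 1, 19), (323, 3, 21)], [(323, 1, 21), (646, 1, 21), (-6783, 3, 23), (646, 1, 21), (1292, 1, 21), (-13566, 3, 23), (1938, 1, 21), (-20349, 3, 23), (-27132, 3, 23), (156009, 5, 25)], (1, 23), [-712215, 16380945, -81904725, 105306075, 0, 0, 0])

/-- Data. -/
noncomputable def atom11 : AtomTab := ([(2, 0, 7), (-14, 2, 9), (-21, 2, 9), (63, 4, 11)], [(-14, 0, 9), (126, 2, 11), (-28, 0, 9), (252, 2, 11), (378, 2, 11), (-1386, 4, 13), (-42, 0, 9), (378, 2, 11), (567, 2, 11), (-2079, 4, 13), (756, 2, 11), (-2772, 4, 13), (-3465, 4, 13), (9009, 6, 15)], (0, 11), [5670, -259875, 1756755, -3648645, 2297295, 0, 0])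

/-- Data. -/
noncomputable def atom12 : AtomTab := ([(2, 0, 9), (-18, 2, 11), (-27, 2, 11), (99, 4, 13)], [(-18, 0, 11), (198, 2, 13), (-36, 0, 11), (396, 2, 13), (594, 2, 13), (-2574, 4, 15), (-54, 0, 11), (594, 2, 13), (891, 2, 13), (-3861, 4, 15), (1188, 2, 13), (-5148, 4, 15), (-6435, 4, 15), (19305, 6, 17)], (0, 13), [8910, -482625, 3764475, -8860995, 6235515, 0, 0])

/-- Data. -/
noncomputable def atom13 : AtomTab := ([(2, 0, 10), (-20, 2, 12), (-30, 2, 12), (120, 4, 14)], [(-20, 0, 12), (240, 2, 14), (-40, 0, 12), (480, 2, 14), (720, 2, 14), (-3360, 4, 16), (-60, 0, 12), (720, 2, 14), (1080, 2, 14), (-5040, 4, 16), (1440, 2, 14), (-6720, 4, 16), (-8400, 4, 16), (26880, 6, 18)], (0, 14), [10800, -630000, 5241600, -13063680, 9676800, 0, 0])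

/-- Data. -/
noncomputable def atom14 : AtomTab := ([(2, 0, 11), (-22, 2, 13), (-33, 2, 13), (143, 4, 15)], [(-22, 0, 13), (286, 2, 15), (-44, 0, 13), (572, 2, 15), (858, 2, 15), (-4290, 4, 17), (-66, 0, 13), (858, 2, 15), (1287, 2, 15), (-6435, 4, 17), (1716, 2, 15), (-8580, 4, 17), (-10725, 4, 17), (36465, 6, 19)], (0, 15), [12870, -804375, 7110675, -18706545, 14549535, 0, 0])

/-- Data. -/
noncomputable def atom15 : AtomTab := ([(2, 0, 14), (-28, 2, 16), (-42, 2, 16), (224, 4, 18)], [(-28, 0, 16), (448, 2, 18), (-56, 0, 16), (896, 2, 18), (1344, 2, 18), (-8064, 4, 20), (-84, 0, 16), (1344, 2, 18), (2016, 2, 18), (-12096, 4, 20), (2688, 2, 18), (-16128, 4, 20), (-20160, 4, 20), (80640, 6, 22)], (0, 18), [20160, -1512000, 15724800, -47900160, 42577920, 0, 0])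

/-- Data. -/
noncomputable def atom16 : AtomTab := ([(6, 1, 7), (-21, 3, 9), (-28, 3, 9), (63, 5, 11)], [(-42, 1, 9), (-84, 1, 9), (378, 3, 11), (-126, 1, 9), (567, 3, 11), (756, 3, 11), (-2079, 5, 13), (-168, 1, 9), (756, 3, 11), (1008, 3, 11), (-2772, 5, 13), (1260, 3, 11), (-3465, 5, 13), (-4158, 5, 13), (9009, 7, 15)], (1, 11), [39690, -654885, 2837835, -4459455, 2297295, 0, 0])

/-- Data. -/
noncomputable def atom17 : AtomTab := ([(6, 1, 8), (-24, 3, 10), (-32, 3, 10), (80, 5, 12)], [(-48, 1, 10), (-96, 1, 10), (480, 3, 12), (-144, 1, 10), (720, 3, 12), (960, 3, 12), (-2880, 5, 14), (-192, 1, 10), (960, 3, 12), (1280, 3, 12), (-3840, 5, 14), (1600, 3, 12), (-4800, 5, 14), (-5760, 5, 14), (13440, 7, 16)], (1, 12), [50400, -907200, 4233600, -7096320, 3870720, 0, 0])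

/-- Data. -/
noncomputable def atom18 : AtomTab := ([(6, 1, 9), (-27, 3, 11), (-36, 3, 11), (99, 5, 13)], [(-54, 1, 11), (-108, 1, 11), (594, 3, 13), (-162, 1, 11), (891, 3, 13), (1188, 3, 13), (-3861, 5, 15), (-216, 1, 11), (1188, 3, 13), (1584, 3, 13), (-5148, 5, 15), (1980, 3, 13), (-6435, 5, 15), (-7722, 5, 15), (19305, 7, 17)], (1, 13), [62370, -1216215, 6081075, -10830105, 6235515, 0, 0])

/-- Data. -/
noncomputable def atom19 : AtomTab := ([(6, 1, 11), (-33, 3, 13), (-44, 3, 13), (143, 5, 15)], [(-66, 1, 13), (-132, 1, 13), (858, 3, 15), (-198, 1, 13), (1287, 3, 15), (1716, 3, 15), (-6435, 5, 17), (-264, 1, 13), (1716, 3, 15), (2288, 3, 15), (-8580, 5, 17), (2860, 3, 15), (-10725, 5, 17), (-12870, 5, 17), (36465, 7, 19)], (1, 15), [90090, -2027025, 11486475, -22863555, 14549535, 0, 0])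

/-- Data. -/
noncomputable def atom20 : AtomTab := ([(6, 1, 12), (-36, 3, 14), (-48, 3, 14), (168, 5, 16)], [(-72, 1, 14), (-144, 1, 14), (1008, 3, 16), (-216, 1, 14), (1512, 3, 16), (2016, 3, 16), (-8064, 5, 18), (-288, 1, 14), (2016, 3, 16), (2688, 3, 16), (-10752, 5, 18), (3360, 3, 16), (-13440, 5, 18), (-16128, 5, 18), (48384, 7, 20)], (1, 16), [105840, -2540160, 15240960, -31933440, 21288960, 0, 0])

/-- Data. -/
noncomputable def atom21 : AtomTab := ([(6, 1, 13), (-39, 3, 15), (-52, 3, 15), (195, 5, 17)], [(-78, 1, 15), (-156, 1, 15), (1170, 3, 17), (-234, 1, 15), (1755, 3, 17), (2340, 3, 17), (-9945, 5, 19), (-312, 1, 15), (2340, 3, 17), (3120, 3, 17), (-13260, 5, 19), (3900, 3, 17), (-16575, 5, 19), (-19890, 5, 19), (62985, 7, 21)], (1, 17), [122850, -3132675, 19840275, -43648605, 30421755, 0, 0])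

/-- Data. -/
noncomputable def atom22 : AtomTab := ([(6, 1, 14), (-42, 3, 16), (-56, 3, 16), (224, 5, 18)], [(-84, 1, 16), (-168, 1, 16), (1344, 3, 18), (-252, 1, 16), (2016, 3, 18), (2688, 3, 18), (-12096, 5, 20), (-336, 1, 16), (2688, 3, 18), (3584, 3, 18), (-16128, 5, 20), (4480, 3, 18), (-20160, 5, 20), (-24192, 5, 20), (80640, 7, 22)], (1, 18), [141120, -3810240, 25401600, -58544640, 42577920, 0, 0])

/-- Data. -/
noncomputable def atom23 : AtomTab := ([(12, 2, 7), (-28, 4, 9), (-35, 4, 9), (63, 6, 11)], [(24, 0, 7), (-168, 2, 9), (-252, 2, 9), (756, 4, 11), (-336, 2, 9), (1008, 4, 11), (1260, 4, 11), (-2772, 6, 13), (-420, 2, 9), (1260, 4, 11), (1575, 4, 11), (-3465, 6, 13), (1890, 4, 11), (-4158, 6, 13), (-4851, 6, 13), (9009, 8, 15)], (0, 9), [-2520, 147420, -1340955, 4189185, -5270265, 2297295, 0])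

/-- Data. -/
noncomputable def atom24 : AtomTab := ([(12, 2, 9), (-36, 4, 11), (-45, 4, 11), (99, 6, 13)], [(24, 0, 9), (-216, 2, 11), (-324, 2, 11), (1188, 4, 13), (-432, 2, 11), (1584, 4, 13), (1980, 4, 13), (-5148, 6, 15), (-540, 2, 11), (1980, 4, 13), (2475, 4, 13), (-6435, 6, 15), (2970, 4, 13), (-7722, 6, 15), (-9009, 6, 15), (19305, 8, 17)], (0, 11), [-3240, 231660, -2490345, 8976825, -12799215, 6235515, 0])

/-- Data. -/
noncomputable def atom25 : AtomTab := ([(12, 2, 11), (-44, 4, 13), (-55, 4, 13), (143, 6, 15)], [(24, 0, 11), (-264, 2, 13), (-396, 2, 13), (1716, 4, 15), (-528, 2, 13), (2288, 4, 15), (2860, 4, 15), (-8580, 6, 17), (-660, 2, 13), (2860, 4, 15), (3575, 4, 15), (-10725, 6, 17), (4290, 4, 15), (-12870, 6, 17), (-15015, 6, 17), (36465, 8, 19)], (0, 13), [-3960, 334620, -4150575, 16956225, -27020565, 14549535, 0])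

/-- Data. -/
noncomputable def atom26 : AtomTab := ([(12, 2, 13), (-52, 4, 15), (-65, 4, 15), (195, 6, 17)], [(24, 0, 13), (-312, 2, 15), (-468, 2, 15), (2340, 4, 17), (-624, 2, 15), (3120, 4, 17), (3900, 4, 17), (-13260, 6, 19), (-780, 2, 15), (3900, 4, 17), (4875, 4, 17), (-16575, 6, 19), (5850, 4, 17), (-19890, 6, 19), (-23205, 6, 19), (62985, 8, 21)], (0, 15), [-4680, 456300, -6414525, 29288025, -51584715, 30421755, 0])

/-- Data. -/
noncomputable def atom27 : AtomTab := ([(12, 2, 16), (-64, 4, 18), (-80, 4, 18), (288, 6, 20)], [(24, 0, 16), (-384, 2, 18), (-576, 2, 18), (3456, 4, 20), (-768, 2, 18), (4608, 4, 20), (5760, 4, 20), (-23040, 6, 22), (-960, 2, 18), (5760, 4, 20), (7200, 4, 20), (-28800, 6, 22), (8640, 4, 20), (-34560, 6, 22), (-40320, 6, 22), (126720, 8, 24)], (0, 18), [-5760, 673920, -11145600, 58924800, -118609920, 79073280, 0])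

/-- Data. -/
noncomputable def atom28 : AtomTab := ([(20, 3, 9), (-45, 5, 11), (-54, 5, 11), (99, 7, 13)], [(120, 1, 9), (-540, 3, 11), (-720, 3, 11), (1980, 5, 13), (-900, 3, 11), (2475, 5, 13), (2970, 5, 13), (-6435, 7, 15), (-1080, 3, 11), (2970, 5, 13), (3564, 5, 13), (-7722, 7, 15), (4158, 5, 13), (-9009, 7, 15), (-10296, 7, 15), (19305, 9, 17)], (1, 11), [-22680, 623700, -4459455, 12451725, -14768325, 6235515, 0])

/-- Data. -/
noncomputable def atom29 : AtomTab := ([(20, 3, 11), (-55, 5, 13), (-66, 5, 13), (143, 7, 15)], [(120, 1, 11), (-660, 3, 13), (-880, 3, 13), (2860, 5, 15), (-1100, 3, 13), (3575, 5, 15), (4290, 5, 15), (-10725, 7, 17), (-1320, 3, 13), (4290, 5, 15), (5148, 5, 15), (-12870, 7, 17), (6006, 5, 15), (-15015, 7, 17), (-17160, 7, 17), (36465, 9, 19)], (1, 13), [-27720, 900900, -7432425, 23519925, -31177575, 14549535, 0])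

/-- Data. -/
noncomputable def atom30 : AtomTab := ([(20, 3, 15), (-75, 5, 17), (-90, 5, 17), (255, 7, 19)], [(120, 1, 15), (-900, 3, 17), (-1200, 3, 17), (5100, 5, 19), (-1500, 3, 17), (6375, 5, 19), (7650, 5, 19), (-24225, 7, 21), (-1800, 3, 17), (7650, 5, 19), (9180, 5, 19), (-29070, 7, 21), (10710, 5, 19), (-33915, 7, 21), (-38760, 7, 21), (101745, 9, 23)], (1, 17), [-37800, 1606500, -16787925, 65625525, -105306075, 58503375, 0])

/-- Data. -/
noncomputable def atom31 : AtomTab := ([(30, 4, 9), (-54, 6, 11), (-63, 6, 11), (99, 8, 13)], [(360, 2, 9), (-1080, 4, 11), (-1350, 4, 11), (2970, 6, 13), (-1620, 4, 11), (3564, 6, 13), (4158, 6, 13), (-7722, 8, 15), (-1890, 4, 11), (4158, 6, 13), (4851, 6, 13), (-9009, 8, 15), (5544, 6, 13), (-10296, 8, 15), (-11583, 8, 15), (19305, 10, 17)], (0, 9), [720, -87480, 1381050, -7277985, 16505775, -16737435, 6235515])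

/-- Data. -/
noncomputable def atom32 : AtomTab := ([(30, 4, 11), (-66, 6, 13), (-77, 6, 13), (143, 8, 15)], [(360, 2, 11), (-1320, 4, 13), (-1650, 4, 13), (4290, 6, 15), (-1980, 4, 13), (5148, 6, 15), (6006, 6, 15), (-12870, 8, 17), (-2310, 4, 13), (6006, 6, 15), (7007, 6, 15), (-15015, 8, 17), (8008, 6, 15), (-17160, 8, 17), (-19305, 8, 17), (36465, 10, 19)], (0, 11), [720, -106920, 1994850, -12129975, 31177575, -35334585, 14549535])

/-- Data. -/
noncomputable def atom33 : AtomTab := ([(30, 4, 17), (-102, 6, 19), (-119, 6, 19), (323, 8, 21)], [(360, 2, 17), (-2040, 4, 19), (-2550, 4, 19), (9690, 6, 21), (-3060, 4, 19), (11628, 6, 21), (13566, 6, 21), (-40698, 8, 23), (-3570, 4, 19), (13566, 6, 21), (15827, 6, 21), (-47481, 8, 23), (18088, 6, 21), (-54264, 8, 23), (-61047, 8, 23), (156009, 10, 25)], (0, 17), [720, -165240, 4505850, -38357865, 133387695, -198911475, 105306075])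

/-- Data. -/
noncomputable def atom34 : AtomTab := ([(42, 5, 11), (-77, 7, 13), (-88, 7, 13), (143, 9, 15)], [(840, 3, 11), (-2310, 5, 13), (-2772, 5, 13), (6006, 7, 15), (-3234, 5, 13), (7007, 7, 15), (8008, 7, 15), (-15015, 9, 17), (-3696, 5, 13), (8008, 7, 15), (9152, 7, 15), (-17160, 9, 17), (10296, 7, 15), (-19305, 9, 17), (-21450, 9, 17), (36465, 11, 19)], (1, 11), [5040, -304920, 3873870, -18500625, 39929175, -39491595, 14549535])

/-- Data. -/
noncomputable def atom35 : AtomTab := ([(42, 5, 13), (-91, 7, 15), (-104, 7, 15), (195, 9, 17)], [(840, 3, 13), (-2730, 5, 15), (-3276, 5, 15), (8190, 7, 17), (-3822, 5, 15), (9555, 7, 17), (10920, 7, 17), (-23205, 9, 19), (-4368, 5, 15), (10920, 7, 17), (12480, 7, 17), (-26520, 9, 19), (14040, 7, 17), (-29835, 9, 19), (-33150, 9, 19), (62985, 11, 21)], (1, 13), [5040, -360360, 5282550, -28591875, 68968575, -75393045, 30421755])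

/-- Data. -/
noncomputable def atom36 : AtomTab := ([(56, 6, 11), (-88, 8, 13), (-99, 8, 13), (143, 10, 15)], [(1680, 4, 11), (-3696, 6, 13), (-4312, 6, 13), (8008, 8, 15), (-4928, 6, 13), (9152, 8, 15), (10296, 8, 15), (-17160, 10, 17), (-5544, 6, 13), (10296, 8, 15), (11583, 8, 15), (-19305, 10, 17), (12870, 8, 15), (-21450, 10, 17), (-23595, 10, 17), (36465, 12, 19)], (2, 11), [20160, -720720, 6846840, -26801775, 49774725, -43648605, 14549535])

/-- Data. -/
noncomputable def atom37 : AtomTab := ([(56, 6, 13), (-104, 8, 15), (-117, 8, 15), (195, 10, 17)], [(1680, 4, 13), (-4368, 6, 15), (-5096, 6, 15), (10920, 8, 17), (-5824, 6, 15), (12480, 8, 17), (14040, 8, 17), (-26520, 10, 19), (-6552, 6, 15), (14040, 8, 17), (15795, 8, 17), (-29835, 10, 19), (17550, 8, 17), (-33150, 10, 19), (-36465, 10, 19), (62985, 12, 21)], (2, 13), [20160, -851760, 9336600, -41420925, 85974525, -83329155, 30421755])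

/-- Data. -/
noncomputable def atom38 : AtomTab := ([(56, 6, 15), (-120, 8, 17), (-135, 8, 17), (255, 10, 19)], [(1680, 4, 15), (-5040, 6, 17), (-5880, 6, 17), (14280, 8, 19), (-6720, 6, 17), (16320, 8, 19), (18360, 8, 19), (-38760, 10, 21), (-7560, 6, 17), (18360, 8, 19), (20655, 8, 19), (-43605, 10, 21), (22950, 8, 19), (-48450, 10, 21), (-53295, 10, 21), (101745, 12, 23)], (2, 15), [20160, -982800, 12209400, -60538275, 138881925, -147428505, 58503375])

/-- Data. -/
noncomputable def atom39 : AtomTab := ([(72, 7, 15), (-135, 9, 17), (-150, 9, 17), (255, 11, 19)], [(3024, 5, 15), (-7560, 7, 17), (-8640, 7, 17), (18360, 9, 19), (-9720, 7, 17), (20655, 9, 19), (22950, 9, 19), (-43605, 11, 21), (-10800, 7, 17), (22950, 9, 19), (25500, 9, 19), (-48450, 11, 21), (28050, 9, 19), (-53295, 11, 21), (-58140, 11, 21), (101745, 13, 23)], (3, 15), [60480, -2041200, 20104200, -84230325, 169405425, -161469315, 58503375])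

/-- Data. -/
noncomputable def atom40 : AtomTab := ([(90, 8, 15), (-150, 10, 17), (-165, 10, 17), (255, 12, 19)], [(5040, 6, 15), (-10800, 8, 17), (-12150, 8, 17), (22950, 10, 19), (-13500, 8, 17), (25500, 10, 19), (28050, 10, 19), (-48450, 12, 21), (-14850, 8, 17), (28050, 10, 19), (30855, 10, 19), (-53295, 12, 21), (33660, 10, 19), (-58140, 12, 21), (-62985, 12, 21), (101745, 14, 23)], (4, 15), [151200, -3855600, 31326750, -113445675, 202981275, -175510125, 58503375])

/-- Data. -/
noncomputable def atom41 : AtomTab := ([(90, 8, 16), (-160, 10, 18), (-176, 10, 18), (288, 12, 20)], [(5040, 6, 16), (-11520, 8, 18), (-12960, 8, 18), (25920, 10, 20), (-14400, 8, 18), (28800, 10, 20), (31680, 10, 20), (-57600, 12, 22), (-15840, 8, 18), (31680, 10, 20), (34848, 10, 20), (-63360, 12, 22), (38016, 10, 20), (-69120, 12, 22), (-74880, 12, 22), (126720, 14, 24)], (4, 16), [151200, -4112640, 35380800, -134870400, 252806400, -228096000, 79073280])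

/-- Data. -/
noncomputable def atom42 : AtomTab := ([(110, 9, 15), (-165, 11, 17), (-180, 11, 17), (255, 13, 19)], [(7920, 7, 15), (-14850, 9, 17), (-16500, 9, 17), (28050, 11, 19), (-18150, 9, 17), (30855, 11, 19), (33660, 11, 19), (-53295, 13, 21), (-19800, 9, 17), (33660, 11, 19), (36720, 11, 19), (-58140, 13, 21), (39780, 11, 19), (-62985, 13, 21), (-67830, 13, 21), (101745, 15, 23)], (5, 15), [332640, -6771600, 46703250, -148765725, 239609475, -189550935, 58503375])

/-- Data. -/
noncomputable def atom43 : AtomTab := ([(132, 10, 15), (-180, 12, 17), (-195, 12, 17), (255, 14, 19)], [(11880, 8, 15), (-19800, 10, 17), (-21780, 10, 17), (33660, 12, 19), (-23760, 10, 17), (36720, 12, 19), (39780, 12, 19), (-58140, 14, 21), (-25740, 10, 17), (39780, 12, 19), (43095, 12, 19), (-62985, 14, 21), (46410, 12, 19), (-67830, 14, 21), (-72675, 14, 21), (101745, 16, 23)], (6, 15), [665280, -11226600, 67151700, -190771875, 279290025, -203591745, 58503375])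

/-- Data. -/
noncomputable def atom44 : AtomTab := ([(132, 10, 17), (-204, 12, 19), (-221, 12, 19), (323, 14, 21)], [(11880, 8, 17), (-22440, 10, 19), (-24684, 10, 19), (42636, 12, 21), (-26928, 10, 19), (46512, 12, 21), (50388, 12, 21), (-81396, 14, 23), (-29172, 10, 19), (50388, 12, 21), (54587, 12, 21), (-88179, 14, 23), (58786, 12, 21), (-94962, 14, 23), (-101745, 14, 23), (156009, 16, 25)], (6, 17), [665280, -12723480, 85058820, -267080625, 428244705, -339319575, 105306075])

/-- Data. -/
noncomputable def atom45 : AtomTab := ([(132, 10, 19), (-228, 12, 21), (-247, 12, 21), (399, 14, 23)], [(11880, 8, 19), (-25080, 10, 21), (-27588, 10, 21), (52668, 12, 23), (-30096, 10, 21), (57456, 12, 23), (62244, 12, 23), (-110124, 14, 25), (-32604, 10, 21), (62244, 12, 23), (67431, 12, 23), (-119301, 14, 25), (72618, 12, 23), (-128478, 14, 25), (-137655, 14, 25), (229425, 16, 27)], (6, 19), [665280, -14220360, 105072660, -361344375, 629771625, -538919325, 179639775])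

/-- Data. -/
noncomputable def atom46 : AtomTab := ([(156, 11, 19), (-247, 13, 21), (-266, 13, 21), (399, 15, 23)], [(17160, 9, 19), (-32604, 11, 21), (-35568, 11, 21), (62244, 13, 23), (-38532, 11, 21), (67431, 13, 23), (72618, 13, 23), (-119301, 15, 25), (-41496, 11, 21), (72618, 13, 23), (78204, 13, 23), (-128478, 15, 25), (83790, 13, 23), (-137655, 15, 25), (-146832, 15, 25), (229425, 17, 27)], (7, 19), [1235520, -22496760, 146584620, -454674465, 726130125, -576086175, 179639775])

/-- Data. -/
noncomputable def atom47 : AtomTab := ([(182, 12, 19), (-266, 14, 21), (-285, 14, 21), (399, 16, 23)], [(24024, 10, 19), (-41496, 12, 21), (-44954, 12, 21), (72618, 14, 23), (-48412, 12, 21), (78204, 14, 23), (83790, 14, 23), (-128478, 16, 25), (-51870, 12, 21), (83790, 14, 23), (89775, 14, 23), (-137655, 16, 25), (95760, 14, 23), (-146832, 16, 25), (-156009, 16, 25), (229425, 18, 27)], (8, 19), [2162160, -34234200, 199336410, -562871295, 829371375, -613253025, 179639775])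

/-- Data. -/
noncomputable def atom48 : AtomTab := ([(210, 13, 19), (-285, 15, 21), (-304, 15, 21), (399, 17, 23)], [(32760, 11, 19), (-51870, 13, 21), (-55860, 13, 21), (83790, 15, 23), (-59850, 13, 21), (89775, 15, 23), (95760, 15, 23), (-137655, 17, 25), (-63840, 13, 21), (95760, 15, 23), (102144, 15, 23), (-146832, 17, 25), (108528, 15, 23), (-156009, 17, 25), (-165186, 17, 25), (229425, 19, 27)], (9, 19), [3603600, -50417640, 265195350, -687036105, 939495375, -650419875, 179639775])

/-- Data. -/
noncomputable def atom49 : AtomTab := ([(240, 14, 19), (-304, 16, 21), (-323, 16, 21), (399, 18, 23)], [(43680, 12, 19), (-63840, 14, 21), (-68400, 14, 21), (95760, 16, 23), (-72960, 14, 21), (102144, 16, 23), (108528, 16, 23), (-146832, 18, 25), (-77520, 14, 21), (108528, 16, 23), (115311, 16, 23), (-156009, 18, 25), (122094, 16, 23), (-165186, 18, 25), (-174363, 18, 25), (229425, 20, 27)], (10, 19), [5765760, -72203040, 346172400, -828270135, 1056502125, -687586725, 179639775])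

/-- Data. -/
noncomputable def atom50 : AtomTab := ([(380, 18, 23), (-460, 20, 25), (-483, 20, 25), (575, 22, 27)], [(116280, 16, 23), (-157320, 18, 25), (-166060, 18, 25), (218500, 20, 27), (-174800, 18, 25), (230000, 20, 27), (241500, 20, 27), (-310500, 22, 29), (-183540, 18, 25), (241500, 20, 27), (253575, 20, 27), (-326025, 22, 29), (265650, 20, 27), (-341550, 22, 29), (-357075, 22, 29), (450225, 24, 31)], (14, 23), [27907200, -296862840, 1248727500, -2682952875, 3126812625, -1884191625, 460580175])

/-- Data. -/
noncomputable def atom51 : AtomTab := ([(380, 18, 25), (-500, 20, 27), (-525, 20, 27), (675, 22, 29)], [(116280, 16, 25), (-171000, 18, 27), (-180500, 18, 27), (256500, 20, 29), (-190000, 18, 27), (270000, 20, 29), (283500, 20, 29), (-391500, 22, 31), (-199500, 18, 27), (283500, 20, 29), (297675, 20, 29), (-411075, 22, 31), (311850, 20, 29), (-430650, 22, 31), (-450225, 22, 31), (606825, 24, 33)], (14, 25), [27907200, -322677000, 1465897500, -3382853625, 4214399625, -2703405375, 700882875])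

/-- Data. -/
noncomputable def atom52 : AtomTab := ([(380, 18, 27), (-540, 20, 29), (-567, 20, 29), (783, 22, 31)], [(116280, 16, 27), (-184680, 18, 29), (-194940, 18, 29), (297540, 20, 31), (-205200, 18, 29), (313200, 20, 31), (328860, 20, 31), (-485460, 22, 33), (-215460, 18, 29), (328860, 20, 31), (345303, 20, 31), (-509733, 22, 33), (361746, 20, 31), (-534006, 22, 33), (-558279, 22, 33), (801009, 24, 35)], (14, 27), [27907200, -348491160, 1700441100, -4194738495, 5563007505, -3784767525, 1037306655])

/-- Data. -/
noncomputable def atom53 : AtomTab := ([(420, 19, 27), (-567, 21, 29), (-594, 21, 29), (783, 23, 31)], [(143640, 17, 27), (-215460, 19, 29), (-226800, 19, 29), (328860, 21, 31), (-238140, 19, 29), (345303, 21, 31), (361746, 21, 31), (-509733, 23, 33), (-249480, 19, 29), (361746, 21, 31), (378972, 21, 31), (-534006, 23, 33), (396198, 21, 31), (-558279, 23, 33), (-582552, 23, 33), (801009, 25, 35)], (15, 27), [39070080, -453758760, 2076750900, -4837730265, 6091673445, -3952979415, 1037306655])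

/-- Data. -/
noncomputable def atom54 : AtomTab := ([(462, 20, 27), (-594, 22, 29), (-621, 22, 29), (783, 24, 31)], [(175560, 18, 27), (-249480, 20, 29), (-261954, 20, 29), (361746, 22, 31), (-274428, 20, 29), (378972, 22, 31), (396198, 22, 31), (-534006, 24, 33), (-286902, 20, 29), (396198, 22, 31), (414207, 22, 31), (-558279, 24, 33), (432216, 22, 31), (-582552, 24, 33), (-606825, 24, 33), (801009, 26, 35)], (16, 27), [53721360, -583034760, 2512325970, -5543346375, 6644369655, -4121191305, 1037306655])

/-- Data. -/
noncomputable def atom55 : AtomTab := ([(506, 21, 27), (-621, 23, 29), (-648, 23, 29), (783, 25, 31)], [(212520, 19, 27), (-286902, 21, 29), (-300564, 21, 29), (396198, 23, 31), (-314226, 21, 29), (414207, 23, 31), (432216, 23, 31), (-558279, 25, 33), (-327888, 21, 29), (432216, 23, 31), (451008, 23, 31), (-582552, 25, 33), (469800, 23, 31), (-606825, 25, 33), (-631098, 25, 33), (801009, 27, 35)], (17, 27), [72681840, -740207160, 3013085790, -6314499585, 7221096135, -4289403195, 1037306655])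

/-- Data. -/
noncomputable def atom56 : AtomTab := ([(552, 22, 27), (-648, 24, 29), (-675, 24, 29), (783, 26, 31)], [(255024, 20, 27), (-327888, 22, 29), (-342792, 22, 29), (432216, 24, 31), (-357696, 22, 29), (451008, 24, 31), (469800, 24, 31), (-582552, 26, 33), (-372600, 22, 29), (469800, 24, 31), (489375, 24, 31), (-606825, 26, 33), (508950, 24, 31), (-631098, 26, 33), (-655371, 26, 33), (801009, 28, 35)], (18, 27), [96909120, -929562480, 3585231720, -7154102655, 7821852885, -4457615085, 1037306655])

/-- Data. -/
noncomputable def atoms : List AtomTab := [atom0, atom1, atom2, atom3, atom4, atom5, atom6, atom7, atom8, atom9, atom10, atom11, atom12, atom13, atom14, atom15, atom16, atom17, atom18, atom19, atom20, atom21, atom22, atom23, atom24, atom25, atom26, atom27, atom28, atom29, atom30, atom31, atom32, atom33, atom34, atom35, atom36, atom37, atom38, atom39, atom40, atom41, atom42, atom43, atom44, atom45, atom46, atom47, atom48, atom49, atom50, atom51, atom52, atom53, atom54, atom55, atom56]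

theorem atoms_ok : atomsOk B atoms = true := by decide +kernel

/-- Data. -/
noncomputable def Fpn : VFam := ⟨⟨(FastCell.sprN 57 [(nat_lit 11, nat_lit 4611686018427387904), (nat_lit 40, nat_lit 8349761223398522880), (nat_lit 43, nat_lit 8349761223398522880), (nat_lit 47, nat_lit 62798949388881231872), (nat_lit 49, nat_lit 62798949388881231872), (nat_lit 54, nat_lit 21959031190072590336), (nat_lit 56, nat_lit 21959031190072590336)], FastCell.sprN 57 [(nat_lit 23, nat_lit 2881042591615287296)], FastCell.sprN 57 [(nat_lit 11, nat_lit 4611686018427387904), (nat_lit 23, nat_lit 2881042591615287296), (nat_lit 40, nat_lit 8349761223398522880), (nat_lit 43, nat_lit 8349761223398522880), (nat_lit 47, nat_lit 62798949388881231872), (nat_lit 49, nat_lit 62798949388881231872), (nat_lit 54, nat_lit 21959031190072590336), (nat_lit 56, nat_lit 21959031190072590336)]), (FastCell.sprN 57 [(nat_lit 42, nat_lit 16699522446797045760), (nat_lit 48, nat_lit 125597898777762463744), (nat_lit 55, nat_lit 43918062380145180672)], FastCell.sprN 57 [(nat_lit 16, nat_lit 5762085183230574592)],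 FastCell.sprN 57 [(nat_lit 16, nat_lit 5762085183230574592), (nat_lit 42, nat_lit 16699522446797045760), (nat_lit 48, nat_lit 125597898777762463744), (nat_lit 55, nat_lit 43918062380145180672)]), (FastCell.sprN 57 [(nat_lit 40, nat_lit 8349761223398522880), (nat_lit 47, nat_lit 62798949388881231872), (nat_lit 54, nat_lit 21959031190072590336)], FastCell.sprN 57 [(nat_lit 11, nat_lit 2881042591615287296)], FastCell.sprN 57 [(nat_lit 11, nat_lit 2881042591615287296), (nat_lit 40, nat_lit 8349761223398522880), (nat_lit 47, nat_lit 62798949388881231872), (nat_lit 54, nat_lit 21959031190072590336)]), z57, z57, z57, z57⟩,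
  ⟨(FastCell.sprN 57 [(nat_lit 11, nat_lit 3868222530187689984), (nat_lit 24, nat_lit 4152576908808159232), (nat_lit 36, nat_lit 8349761223398522880), (nat_lit 43, nat_lit 62798949388881231872), (nat_lit 50, nat_lit 21959031190072590336)], FastCell.sprN 57 [(nat_lit 16, nat_lit 253182678512173056), (nat_lit 23, nat_lit 2881042591615287296), (nat_lit 32, nat_lit 2275750681631522816), (nat_lit 37, nat_lit 8349761223398522880), (nat_lit 44, nat_lit 62798949388881231872), (nat_lit 51, nat_lit 21959031190072590336)], FastCell.sprN 57 [(nat_lit 11, nat_lit 3868222530187689984), (nat_lit 16, nat_lit 253182678512173056), (nat_lit 23, nat_lit 2881042591615287296), (nat_lit 24, nat_lit 4152576908808159232), (nat_lit 32, nat_lit 2275750681631522816), (nat_lit 36, nat_lit 8349761223398522880), (nat_lit 37, nat_lit 8349761223398522880), (nat_lit 43, nat_lit 62798949388881231872), (nat_lit 44, nat_lit 62798949388881231872), (nat_lit 50, nat_lit 21959031190072590336), (nat_lit 51, nat_lit 21959031190072590336)]), (FastCell.sprN 57 [(nat_lit 13, nat_lit 87697433675675205632),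 (nat_lit 16, nat_lit 106162200847350497280), (nat_lit 26, nat_lit 120091954378082091008), (nat_lit 31, nat_lit 64758274110236131328)], FastCell.sprN 57 [(nat_lit 11, nat_lit 89125086433420247040), (nat_lit 19, nat_lit 93979892307600605184), (nat_lit 23, nat_lit 60645049444140580864)], FastCell.sprN 57 [(nat_lit 11, nat_lit 89125086433420247040), (nat_lit 13, nat_lit 87697433675675205632), (nat_lit 16, nat_lit 106162200847350497280), (nat_lit 19, nat_lit 93979892307600605184), (nat_lit 23, nat_lit 60645049444140580864), (nat_lit 26, nat_lit 120091954378082091008), (nat_lit 31, nat_lit 64758274110236131328)]), (FastCell.sprN 57 [(nat_lit 24, nat_lit 13056118693375770624)], FastCell.sprN 57 [(nat_lit 16, nat_lit 4750567211179966464)], FastCell.sprN 57 [(nat_lit 16, nat_lit 4750567211179966464), (nat_lit 24, nat_lit 13056118693375770624)]), z57, (FastCell.sprN 57 [(nat_lit 1, nat_lit 1074304765363486720), (nat_lit 6, nat_lit 315721624294785024), (nat_lit 18, nat_lit 2131329170045665280)], FastCell.sprN 57 [(nat_lit 3, nat_lit 716927378546229248), (nat_lit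 11, nat_lit 3296044244677951488)], FastCell.sprN 57 [(nat_lit 1, nat_lit 1074304765363486720), (nat_lit 3, nat_lit 716927378546229248), (nat_lit 6, nat_lit 315721624294785024), (nat_lit 11, nat_lit 3296044244677951488), (nat_lit 18, nat_lit 2131329170045665280)]), z57, z57⟩,
  ⟨(FastCell.sprN 57 [(nat_lit 11, nat_lit 242063247627255808), (nat_lit 24, nat_lit 1491773353151692800), (nat_lit 26, nat_lit 188650901190213632), (nat_lit 28, nat_lit 60269564520300544)], FastCell.sprN 57 [(nat_lit 17, nat_lit 70861755957379072), (nat_lit 21, nat_lit 1210600480145670144), (nat_lit 32, nat_lit 1733842400058540032), (nat_lit 33, nat_lit 6406187185426399232), (nat_lit 38, nat_lit 3010552288134561792)], FastCell.sprN 57 [(nat_lit 11, nat_lit 242063247627255808), (nat_lit 17, nat_lit 70861755957379072), (nat_lit 21, nat_lit 1210600480145670144), (nat_lit 24, nat_lit 1491773353151692800), (nat_lit 26, nat_lit 188650901190213632), (nat_lit 28, nat_lit 60269564520300544), (nat_lit 32, nat_lit 1733842400058540032), (nat_lit 33, nat_lit 6406187185426399232), (nat_lit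 38, nat_lit 3010552288134561792)]), (FastCell.sprN 57 [(nat_lit 5, nat_lit 68942808747559878656), (nat_lit 7, nat_lit 52449100270298726400), (nat_lit 18, nat_lit 21814552052910522368), (nat_lit 24, nat_lit 1772278749585211392), (nat_lit 35, nat_lit 25033257497946750976)], FastCell.sprN 57 [(nat_lit 6, nat_lit 121390045606568787968), (nat_lit 11, nat_lit 759548035536519168), (nat_lit 29, nat_lit 51027696269062569984), (nat_lit 39, nat_lit 16699522446797045760), (nat_lit 46, nat_lit 125597898777762463744), (nat_lit 53, nat_lit 43918062380145180672)], FastCell.sprN 57 [(nat_lit 5, nat_lit 68942808747559878656), (nat_lit 6, nat_lit 121390045606568787968), (nat_lit 7, nat_lit 52449100270298726400), (nat_lit 11, nat_lit 759548035536519168), (nat_lit 18, nat_lit 21814552052910522368), (nat_lit 24, nat_lit 1772278749585211392), (nat_lit 29, nat_lit 51027696269062569984), (nat_lit 35, nat_lit 25033257497946750976), (nat_lit 39, nat_lit 16699522446797045760), (nat_lit 46, nat_lit 125597898777762463744), (nat_lit 53, nat_lit 43918062380145180672)]), (FastCell.sprN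 57 [(nat_lit 8, nat_lit 87697433675675205632), (nat_lit 9, nat_lit 4297219061453946880), (nat_lit 11, nat_lit 156362258679410458624), (nat_lit 15, nat_lit 1262886497179140096), (nat_lit 18, nat_lit 311937802516970864640), (nat_lit 21, nat_lit 240183908756164182016), (nat_lit 26, nat_lit 516889407691803328512), (nat_lit 27, nat_lit 8525316680182661120), (nat_lit 28, nat_lit 406532495385200427008), (nat_lit 40, nat_lit 8349761223398522880), (nat_lit 47, nat_lit 62798949388881231872), (nat_lit 54, nat_lit 21959031190072590336)], FastCell.sprN 57 [(nat_lit 6, nat_lit 89125086433420247040), (nat_lit 10, nat_lit 2867709514184916992), (nat_lit 14, nat_lit 140969838461400907776), (nat_lit 16, nat_lit 121290098888281161728), (nat_lit 20, nat_lit 438487168378376028160), (nat_lit 22, nat_lit 13184176978711805952), (nat_lit 24, nat_lit 371567702965726740480), (nat_lit 30, nat_lit 780597703457533591552), (nat_lit 34, nat_lit 291412233496062590976)], FastCell.sprN 57 [(nat_lit 6, nat_lit 89125086433420247040), (nat_lit 8, nat_lit 87697433675675205632), (nat_lit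 9, nat_lit 4297219061453946880), (nat_lit 10, nat_lit 2867709514184916992), (nat_lit 11, nat_lit 156362258679410458624), (nat_lit 14, nat_lit 140969838461400907776), (nat_lit 15, nat_lit 1262886497179140096), (nat_lit 16, nat_lit 121290098888281161728), (nat_lit 18, nat_lit 311937802516970864640), (nat_lit 20, nat_lit 438487168378376028160), (nat_lit 21, nat_lit 240183908756164182016), (nat_lit 22, nat_lit 13184176978711805952), (nat_lit 24, nat_lit 371567702965726740480), (nat_lit 26, nat_lit 516889407691803328512), (nat_lit 27, nat_lit 8525316680182661120), (nat_lit 28, nat_lit 406532495385200427008), (nat_lit 30, nat_lit 780597703457533591552), (nat_lit 34, nat_lit 291412233496062590976), (nat_lit 40, nat_lit 8349761223398522880), (nat_lit 47, nat_lit 62798949388881231872), (nat_lit 54, nat_lit 21959031190072590336)]), (FastCell.sprN 57 [(nat_lit 18, nat_lit 17408158257834360832), (nat_lit 24, nat_lit 11084656826086588416)], FastCell.sprN 57 [(nat_lit 11, nat_lit 4750567211179966464), (nat_lit 29, nat_lit 39168356080127311872)], FastCell.sprN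 57 [(nat_lit 11, nat_lit 4750567211179966464), (nat_lit 18, nat_lit 17408158257834360832), (nat_lit 24, nat_lit 11084656826086588416), (nat_lit 29, nat_lit 39168356080127311872)]), z57, (FastCell.sprN 57 [(nat_lit 2, nat_lit 315721624294785024), (nat_lit 9, nat_lit 7169273785462292480), (nat_lit 12, nat_lit 4183936140073500672), (nat_lit 18, nat_lit 23072309712745660416)], FastCell.sprN 57 [(nat_lit 6, nat_lit 9089910248868675584), (nat_lit 25, nat_lit 19181962530410987520)], FastCell.sprN 57 [(nat_lit 2, nat_lit 315721624294785024), (nat_lit 6, nat_lit 9089910248868675584), (nat_lit 9, nat_lit 7169273785462292480), (nat_lit 12, nat_lit 4183936140073500672), (nat_lit 18, nat_lit 23072309712745660416), (nat_lit 25, nat_lit 19181962530410987520)]), z57⟩,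
  ⟨(FastCell.sprN 57 [(nat_lit 11, nat_lit 743463488239697920), (nat_lit 16, nat_lit 253182678512173056), (nat_lit 32, nat_lit 2275750681631522816)], FastCell.sprN 57 [(nat_lit 24, nat_lit 4152576908808159232)], FastCell.sprN 57 [(nat_lit 11, nat_lit 743463488239697920), (nat_lit 16, nat_lit 253182678512173056), (nat_lit 24, nat_lit 4152576908808159232), (nat_lit 32, nat_lit 2275750681631522816)]), (FastCell.sprN 57 [(nat_lit 11, nat_lit 89125086433420247040), (nat_lit 19, nat_lit 93979892307600605184), (nat_lit 23, nat_lit 60645049444140580864), (nat_lit 42, nat_lit 16699522446797045760), (nat_lit 48, nat_lit 125597898777762463744), (nat_lit 55, nat_lit 43918062380145180672)], FastCell.sprN 57 [(nat_lit 13, nat_lit 87697433675675205632), (nat_lit 16, nat_lit 111924286030581071872), (nat_lit 26, nat_lit 120091954378082091008), (nat_lit 31, nat_lit 64758274110236131328)], FastCell.sprN 57 [(nat_lit 11, nat_lit 89125086433420247040), (nat_lit 13, nat_lit 87697433675675205632), (nat_lit 16, nat_lit 111924286030581071872), (nat_lit 19, nat_lit 93979892307600605184),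 (nat_lit 23, nat_lit 60645049444140580864), (nat_lit 26, nat_lit 120091954378082091008), (nat_lit 31, nat_lit 64758274110236131328), (nat_lit 42, nat_lit 16699522446797045760), (nat_lit 48, nat_lit 125597898777762463744), (nat_lit 55, nat_lit 43918062380145180672)]), (FastCell.sprN 57 [(nat_lit 16, nat_lit 4750567211179966464), (nat_lit 40, nat_lit 8349761223398522880), (nat_lit 47, nat_lit 62798949388881231872), (nat_lit 54, nat_lit 21959031190072590336)], FastCell.sprN 57 [(nat_lit 11, nat_lit 2881042591615287296), (nat_lit 24, nat_lit 13056118693375770624)], FastCell.sprN 57 [(nat_lit 11, nat_lit 2881042591615287296), (nat_lit 16, nat_lit 4750567211179966464), (nat_lit 24, nat_lit 13056118693375770624), (nat_lit 40, nat_lit 8349761223398522880), (nat_lit 47, nat_lit 62798949388881231872), (nat_lit 54, nat_lit 21959031190072590336)]), z57, (FastCell.sprN 57 [(nat_lit 3, nat_lit 716927378546229248), (nat_lit 11, nat_lit 3296044244677951488)], FastCell.sprN 57 [(nat_lit 1, nat_lit 1074304765363486720), (nat_lit 6, nat_lit 315721624294785024), (nat_lit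 18, nat_lit 2131329170045665280)], FastCell.sprN 57 [(nat_lit 1, nat_lit 1074304765363486720), (nat_lit 3, nat_lit 716927378546229248), (nat_lit 6, nat_lit 315721624294785024), (nat_lit 11, nat_lit 3296044244677951488), (nat_lit 18, nat_lit 2131329170045665280)]), z57, z57⟩⟩

theorem eFpn : vfam B 3 p sn = some Fpn := by decide +kernel

theorem fitpn : famFits 162 57 4722366482869645213696 47220265384565300831338 318289194332078162217408372 Fpn = true := by decide +kernel

/-- Data. -/
noncomputable def Fpp : VFam := ⟨⟨(FastCell.sprN 57 [(nat_lit 11, nat_lit 4611686018427387904), (nat_lit 40, nat_lit 3191159038775656448), (nat_lit 43, nat_lit 3191159038775656448), (nat_lit 47, nat_lit 43300833871282569216), (nat_lit 49, nat_lit 43300833871282569216)], FastCell.sprN 57 [(nat_lit 23, nat_lit 2881042591615287296)], FastCell.sprN 57 [(nat_lit 11, nat_lit 4611686018427387904), (nat_lit 23, nat_lit 2881042591615287296), (nat_lit 40, nat_lit 3191159038775656448), (nat_lit 43, nat_lit 3191159038775656448), (nat_lit 47, nat_lit 43300833871282569216), (nat_lit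 49, nat_lit 43300833871282569216)]), (FastCell.sprN 57 [(nat_lit 42, nat_lit 6382318077551312896), (nat_lit 48, nat_lit 86601667742565138432)], FastCell.sprN 57 [(nat_lit 16, nat_lit 5762085183230574592)], FastCell.sprN 57 [(nat_lit 16, nat_lit 5762085183230574592), (nat_lit 42, nat_lit 6382318077551312896), (nat_lit 48, nat_lit 86601667742565138432)]), (FastCell.sprN 57 [(nat_lit 40, nat_lit 3191159038775656448), (nat_lit 41, nat_lit 319114271235942383616), (nat_lit 47, nat_lit 43300833871282569216)], FastCell.sprN 57 [(nat_lit 11, nat_lit 2881042591615287296)], FastCell.sprN 57 [(nat_lit 11, nat_lit 2881042591615287296), (nat_lit 40, nat_lit 3191159038775656448), (nat_lit 41, nat_lit 319114271235942383616), (nat_lit 47, nat_lit 43300833871282569216)]), z57, z57, z57, z57⟩,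
  ⟨(FastCell.sprN 57 [(nat_lit 11, nat_lit 3868222530187689984), (nat_lit 24, nat_lit 4152576908808159232), (nat_lit 36, nat_lit 3191159038775656448), (nat_lit 43, nat_lit 43300833871282569216)], FastCell.sprN 57 [(nat_lit 16, nat_lit 253182678512173056), (nat_lit 23, nat_lit 2881042591615287296), (nat_lit 32, nat_lit 2275750681631522816), (nat_lit 37, nat_lit 3191159038775656448), (nat_lit 44, nat_lit 43300833871282569216)], FastCell.sprN 57 [(nat_lit 11, nat_lit 3868222530187689984), (nat_lit 16, nat_lit 253182678512173056), (nat_lit 23, nat_lit 2881042591615287296), (nat_lit 24, nat_lit 4152576908808159232), (nat_lit 32, nat_lit 2275750681631522816), (nat_lit 36, nat_lit 3191159038775656448), (nat_lit 37, nat_lit 3191159038775656448), (nat_lit 43, nat_lit 43300833871282569216), (nat_lit 44, nat_lit 43300833871282569216)]), (FastCell.sprN 57 [(nat_lit 13, nat_lit 87697433675675205632), (nat_lit 16, nat_lit 106162200847350497280), (nat_lit 26, nat_lit 120091954378082091008), (nat_lit 31, nat_lit 64758274110236131328)], FastCell.sprN 57 [(nat_lit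 11, nat_lit 89125086433420247040), (nat_lit 19, nat_lit 93979892307600605184), (nat_lit 23, nat_lit 60645049444140580864)], FastCell.sprN 57 [(nat_lit 11, nat_lit 89125086433420247040), (nat_lit 13, nat_lit 87697433675675205632), (nat_lit 16, nat_lit 106162200847350497280), (nat_lit 19, nat_lit 93979892307600605184), (nat_lit 23, nat_lit 60645049444140580864), (nat_lit 26, nat_lit 120091954378082091008), (nat_lit 31, nat_lit 64758274110236131328)]), (FastCell.sprN 57 [(nat_lit 24, nat_lit 13056118693375770624)], FastCell.sprN 57 [(nat_lit 16, nat_lit 4750567211179966464)], FastCell.sprN 57 [(nat_lit 16, nat_lit 4750567211179966464), (nat_lit 24, nat_lit 13056118693375770624)]), z57, (FastCell.sprN 57 [(nat_lit 1, nat_lit 1074304765363486720), (nat_lit 6, nat_lit 315721624294785024), (nat_lit 18, nat_lit 2131329170045665280)], FastCell.sprN 57 [(nat_lit 3, nat_lit 716927378546229248), (nat_lit 11, nat_lit 3296044244677951488)], FastCell.sprN 57 [(nat_lit 1, nat_lit 1074304765363486720), (nat_lit 3, nat_lit 716927378546229248), (nat_lit 6, nat_lit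 315721624294785024), (nat_lit 11, nat_lit 3296044244677951488), (nat_lit 18, nat_lit 2131329170045665280)]), z57, z57⟩,
  ⟨(FastCell.sprN 57 [(nat_lit 11, nat_lit 242063247627255808), (nat_lit 24, nat_lit 1491773353151692800), (nat_lit 26, nat_lit 188650901190213632), (nat_lit 28, nat_lit 60269564520300544)], FastCell.sprN 57 [(nat_lit 17, nat_lit 70861755957379072), (nat_lit 21, nat_lit 1210600480145670144), (nat_lit 32, nat_lit 1733842400058540032), (nat_lit 33, nat_lit 6406187185426399232), (nat_lit 38, nat_lit 3010552288134561792)], FastCell.sprN 57 [(nat_lit 11, nat_lit 242063247627255808), (nat_lit 17, nat_lit 70861755957379072), (nat_lit 21, nat_lit 1210600480145670144), (nat_lit 24, nat_lit 1491773353151692800), (nat_lit 26, nat_lit 188650901190213632), (nat_lit 28, nat_lit 60269564520300544), (nat_lit 32, nat_lit 1733842400058540032), (nat_lit 33, nat_lit 6406187185426399232), (nat_lit 38, nat_lit 3010552288134561792)]), (FastCell.sprN 57 [(nat_lit 5, nat_lit 68942808747559878656), (nat_lit 7, nat_lit 52449100270298726400), (nat_lit 18,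 nat_lit 21814552052910522368), (nat_lit 24, nat_lit 1772278749585211392), (nat_lit 35, nat_lit 25033257497946750976)], FastCell.sprN 57 [(nat_lit 6, nat_lit 121390045606568787968), (nat_lit 11, nat_lit 759548035536519168), (nat_lit 29, nat_lit 51027696269062569984), (nat_lit 39, nat_lit 6382318077551312896), (nat_lit 46, nat_lit 86601667742565138432)], FastCell.sprN 57 [(nat_lit 5, nat_lit 68942808747559878656), (nat_lit 6, nat_lit 121390045606568787968), (nat_lit 7, nat_lit 52449100270298726400), (nat_lit 11, nat_lit 759548035536519168), (nat_lit 18, nat_lit 21814552052910522368), (nat_lit 24, nat_lit 1772278749585211392), (nat_lit 29, nat_lit 51027696269062569984), (nat_lit 35, nat_lit 25033257497946750976), (nat_lit 39, nat_lit 6382318077551312896), (nat_lit 46, nat_lit 86601667742565138432)]), (FastCell.sprN 57 [(nat_lit 8, nat_lit 87697433675675205632), (nat_lit 9, nat_lit 4297219061453946880), (nat_lit 11, nat_lit 156362258679410458624), (nat_lit 15, nat_lit 1262886497179140096), (nat_lit 18, nat_lit 311937802516970864640), (nat_lit 21, nat_lit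 240183908756164182016), (nat_lit 26, nat_lit 516889407691803328512), (nat_lit 27, nat_lit 8525316680182661120), (nat_lit 28, nat_lit 406532495385200427008), (nat_lit 40, nat_lit 3191159038775656448), (nat_lit 41, nat_lit 319114271235942383616), (nat_lit 47, nat_lit 43300833871282569216)], FastCell.sprN 57 [(nat_lit 6, nat_lit 89125086433420247040), (nat_lit 10, nat_lit 2867709514184916992), (nat_lit 14, nat_lit 140969838461400907776), (nat_lit 16, nat_lit 121290098888281161728), (nat_lit 20, nat_lit 438487168378376028160), (nat_lit 22, nat_lit 13184176978711805952), (nat_lit 24, nat_lit 371567702965726740480), (nat_lit 30, nat_lit 780597703457533591552), (nat_lit 34, nat_lit 291412233496062590976), (nat_lit 39, nat_lit 319114271235942383616)], FastCell.sprN 57 [(nat_lit 6, nat_lit 89125086433420247040), (nat_lit 8, nat_lit 87697433675675205632), (nat_lit 9, nat_lit 4297219061453946880), (nat_lit 10, nat_lit 2867709514184916992), (nat_lit 11, nat_lit 156362258679410458624), (nat_lit 14, nat_lit 140969838461400907776), (nat_lit 15, nat_lit 1262886497179140096),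 (nat_lit 16, nat_lit 121290098888281161728), (nat_lit 18, nat_lit 311937802516970864640), (nat_lit 20, nat_lit 438487168378376028160), (nat_lit 21, nat_lit 240183908756164182016), (nat_lit 22, nat_lit 13184176978711805952), (nat_lit 24, nat_lit 371567702965726740480), (nat_lit 26, nat_lit 516889407691803328512), (nat_lit 27, nat_lit 8525316680182661120), (nat_lit 28, nat_lit 406532495385200427008), (nat_lit 30, nat_lit 780597703457533591552), (nat_lit 34, nat_lit 291412233496062590976), (nat_lit 39, nat_lit 319114271235942383616), (nat_lit 40, nat_lit 3191159038775656448), (nat_lit 41, nat_lit 319114271235942383616), (nat_lit 47, nat_lit 43300833871282569216)]), (FastCell.sprN 57 [(nat_lit 18, nat_lit 17408158257834360832), (nat_lit 24, nat_lit 11084656826086588416)], FastCell.sprN 57 [(nat_lit 11, nat_lit 4750567211179966464), (nat_lit 29, nat_lit 39168356080127311872)], FastCell.sprN 57 [(nat_lit 11, nat_lit 4750567211179966464), (nat_lit 18, nat_lit 17408158257834360832), (nat_lit 24, nat_lit 11084656826086588416), (nat_lit 29, nat_lit 39168356080127311872)]),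 z57, (FastCell.sprN 57 [(nat_lit 2, nat_lit 315721624294785024), (nat_lit 9, nat_lit 7169273785462292480), (nat_lit 12, nat_lit 4183936140073500672), (nat_lit 18, nat_lit 23072309712745660416)], FastCell.sprN 57 [(nat_lit 6, nat_lit 9089910248868675584), (nat_lit 25, nat_lit 19181962530410987520)], FastCell.sprN 57 [(nat_lit 2, nat_lit 315721624294785024), (nat_lit 6, nat_lit 9089910248868675584), (nat_lit 9, nat_lit 7169273785462292480), (nat_lit 12, nat_lit 4183936140073500672), (nat_lit 18, nat_lit 23072309712745660416), (nat_lit 25, nat_lit 19181962530410987520)]), z57⟩,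
  ⟨(FastCell.sprN 57 [(nat_lit 11, nat_lit 743463488239697920), (nat_lit 16, nat_lit 253182678512173056), (nat_lit 32, nat_lit 2275750681631522816)], FastCell.sprN 57 [(nat_lit 24, nat_lit 4152576908808159232)], FastCell.sprN 57 [(nat_lit 11, nat_lit 743463488239697920), (nat_lit 16, nat_lit 253182678512173056), (nat_lit 24, nat_lit 4152576908808159232), (nat_lit 32, nat_lit 2275750681631522816)]), (FastCell.sprN 57 [(nat_lit 11, nat_lit 89125086433420247040), (nat_lit 19, nat_lit 93979892307600605184), (nat_lit 23, nat_lit 60645049444140580864), (nat_lit 42, nat_lit 6382318077551312896), (nat_lit 48, nat_lit 86601667742565138432)], FastCell.sprN 57 [(nat_lit 13, nat_lit 87697433675675205632), (nat_lit 16, nat_lit 111924286030581071872), (nat_lit 26, nat_lit 120091954378082091008), (nat_lit 31, nat_lit 64758274110236131328)], FastCell.sprN 57 [(nat_lit 11, nat_lit 89125086433420247040), (nat_lit 13, nat_lit 87697433675675205632), (nat_lit 16, nat_lit 111924286030581071872), (nat_lit 19, nat_lit 93979892307600605184), (nat_lit 23, nat_lit 60645049444140580864),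 (nat_lit 26, nat_lit 120091954378082091008), (nat_lit 31, nat_lit 64758274110236131328), (nat_lit 42, nat_lit 6382318077551312896), (nat_lit 48, nat_lit 86601667742565138432)]), (FastCell.sprN 57 [(nat_lit 16, nat_lit 4750567211179966464), (nat_lit 40, nat_lit 3191159038775656448), (nat_lit 41, nat_lit 319114271235942383616), (nat_lit 47, nat_lit 43300833871282569216)], FastCell.sprN 57 [(nat_lit 11, nat_lit 2881042591615287296), (nat_lit 24, nat_lit 13056118693375770624)], FastCell.sprN 57 [(nat_lit 11, nat_lit 2881042591615287296), (nat_lit 16, nat_lit 4750567211179966464), (nat_lit 24, nat_lit 13056118693375770624), (nat_lit 40, nat_lit 3191159038775656448), (nat_lit 41, nat_lit 319114271235942383616), (nat_lit 47, nat_lit 43300833871282569216)]), z57, (FastCell.sprN 57 [(nat_lit 3, nat_lit 716927378546229248), (nat_lit 11, nat_lit 3296044244677951488)], FastCell.sprN 57 [(nat_lit 1, nat_lit 1074304765363486720), (nat_lit 6, nat_lit 315721624294785024), (nat_lit 18, nat_lit 2131329170045665280)], FastCell.sprN 57 [(nat_lit 1, nat_lit 1074304765363486720),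 (nat_lit 3, nat_lit 716927378546229248), (nat_lit 6, nat_lit 315721624294785024), (nat_lit 11, nat_lit 3296044244677951488), (nat_lit 18, nat_lit 2131329170045665280)]), z57, z57⟩⟩

theorem eFpp : vfam B 3 p sp = some Fpp := by decide +kernel

theorem fitpp : famFits 162 57 4722366482869645213696 47220265384565300831338 318289194332078162217408372 Fpp = true := by decide +kernel

/-- Data. -/
noncomputable def Fqn : VFam := ⟨⟨(FastCell.sprN 57 [(nat_lit 11, nat_lit 4611686018427387904), (nat_lit 40, nat_lit 8349761223398522880), (nat_lit 43, nat_lit 8349761223398522880), (nat_lit 47, nat_lit 62798949388881231872), (nat_lit 49, nat_lit 62798949388881231872), (nat_lit 54, nat_lit 21959031190072590336), (nat_lit 56, nat_lit 21959031190072590336)], FastCell.sprN 57 [(nat_lit 23, nat_lit 3247256890823933952)], FastCell.sprN 57 [(nat_lit 11, nat_lit 4611686018427387904), (nat_lit 23, nat_lit 3247256890823933952), (nat_lit 40, nat_lit 8349761223398522880), (nat_lit 43, nat_lit 8349761223398522880), (nat_lit 47, nat_lit 62798949388881231872), (nat_lit 49,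 nat_lit 62798949388881231872), (nat_lit 54, nat_lit 21959031190072590336), (nat_lit 56, nat_lit 21959031190072590336)]), (FastCell.sprN 57 [(nat_lit 42, nat_lit 16699522446797045760), (nat_lit 48, nat_lit 125597898777762463744), (nat_lit 55, nat_lit 43918062380145180672)], FastCell.sprN 57 [(nat_lit 16, nat_lit 6494513781647867904)], FastCell.sprN 57 [(nat_lit 16, nat_lit 6494513781647867904), (nat_lit 42, nat_lit 16699522446797045760), (nat_lit 48, nat_lit 125597898777762463744), (nat_lit 55, nat_lit 43918062380145180672)]), (FastCell.sprN 57 [(nat_lit 40, nat_lit 8349761223398522880), (nat_lit 47, nat_lit 62798949388881231872), (nat_lit 54, nat_lit 21959031190072590336)], FastCell.sprN 57 [(nat_lit 11, nat_lit 3247256890823933952)], FastCell.sprN 57 [(nat_lit 11, nat_lit 3247256890823933952), (nat_lit 40, nat_lit 8349761223398522880), (nat_lit 47, nat_lit 62798949388881231872), (nat_lit 54, nat_lit 21959031190072590336)]), z57, z57, z57, z57⟩,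
  ⟨(FastCell.sprN 57 [(nat_lit 11, nat_lit 3741204684572983296), (nat_lit 24, nat_lit 4372912068282548224), (nat_lit 36, nat_lit 8349761223398522880), (nat_lit 43, nat_lit 62798949388881231872), (nat_lit 50, nat_lit 21959031190072590336)], FastCell.sprN 57 [(nat_lit 16, nat_lit 263218069315256320), (nat_lit 23, nat_lit 3247256890823933952), (nat_lit 32, nat_lit 2386726758897418240), (nat_lit 37, nat_lit 8349761223398522880), (nat_lit 44, nat_lit 62798949388881231872), (nat_lit 51, nat_lit 21959031190072590336)], FastCell.sprN 57 [(nat_lit 11, nat_lit 3741204684572983296), (nat_lit 16, nat_lit 263218069315256320), (nat_lit 23, nat_lit 3247256890823933952), (nat_lit 24, nat_lit 4372912068282548224), (nat_lit 32, nat_lit 2386726758897418240), (nat_lit 36, nat_lit 8349761223398522880), (nat_lit 37, nat_lit 8349761223398522880), (nat_lit 43, nat_lit 62798949388881231872), (nat_lit 44, nat_lit 62798949388881231872), (nat_lit 50, nat_lit 21959031190072590336), (nat_lit 51, nat_lit 21959031190072590336)]), (FastCell.sprN 57 [(nat_lit 13, nat_lit 110422352288045596672),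 (nat_lit 16, nat_lit 107169787921450401792), (nat_lit 26, nat_lit 121428141413507268608), (nat_lit 31, nat_lit 40181101886691082240)], FastCell.sprN 57 [(nat_lit 11, nat_lit 112951222591626936320), (nat_lit 19, nat_lit 91109974112926171136), (nat_lit 23, nat_lit 35067370614831448064)], FastCell.sprN 57 [(nat_lit 11, nat_lit 112951222591626936320), (nat_lit 13, nat_lit 110422352288045596672), (nat_lit 16, nat_lit 107169787921450401792), (nat_lit 19, nat_lit 91109974112926171136), (nat_lit 23, nat_lit 35067370614831448064), (nat_lit 26, nat_lit 121428141413507268608), (nat_lit 31, nat_lit 40181101886691082240)]), (FastCell.sprN 57 [(nat_lit 24, nat_lit 26824301028367663104)], FastCell.sprN 57 [(nat_lit 16, nat_lit 11457482109682188288)], FastCell.sprN 57 [(nat_lit 16, nat_lit 11457482109682188288), (nat_lit 24, nat_lit 26824301028367663104)]), z57, (FastCell.sprN 57 [(nat_lit 1, nat_lit 1406422109483171840), (nat_lit 18, nat_lit 170170188417728512)], FastCell.sprN 57 [(nat_lit 3, nat_lit 773618758567591936), (nat_lit 6, nat_lit 117671031484710912),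 (nat_lit 11, nat_lit 2008634630994919424)], FastCell.sprN 57 [(nat_lit 1, nat_lit 1406422109483171840), (nat_lit 3, nat_lit 773618758567591936), (nat_lit 6, nat_lit 117671031484710912), (nat_lit 11, nat_lit 2008634630994919424), (nat_lit 18, nat_lit 170170188417728512)]), z57, z57⟩,
  ⟨(FastCell.sprN 57 [(nat_lit 11, nat_lit 313119638617587712), (nat_lit 24, nat_lit 2464551195860008960), (nat_lit 28, nat_lit 60927591091011584)], FastCell.sprN 57 [(nat_lit 17, nat_lit 20963637661270016), (nat_lit 21, nat_lit 1301753809093001216), (nat_lit 26, nat_lit 1293028854687858688), (nat_lit 32, nat_lit 2779562254322892800), (nat_lit 33, nat_lit 7241240652611059712), (nat_lit 38, nat_lit 4696539779255238656)], FastCell.sprN 57 [(nat_lit 11, nat_lit 313119638617587712), (nat_lit 17, nat_lit 20963637661270016), (nat_lit 21, nat_lit 1301753809093001216), (nat_lit 24, nat_lit 2464551195860008960), (nat_lit 26, nat_lit 1293028854687858688), (nat_lit 28, nat_lit 60927591091011584), (nat_lit 32, nat_lit 2779562254322892800), (nat_lit 33, nat_lit 7241240652611059712),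 (nat_lit 38, nat_lit 4696539779255238656)]), (FastCell.sprN 57 [(nat_lit 5, nat_lit 71207747196916072448), (nat_lit 7, nat_lit 55012600364759252992), (nat_lit 18, nat_lit 23585017610111025152), (nat_lit 24, nat_lit 1842526485206794240), (nat_lit 35, nat_lit 26253994347871600640)], FastCell.sprN 57 [(nat_lit 6, nat_lit 126218410953405366272), (nat_lit 11, nat_lit 789654207945768960), (nat_lit 29, nat_lit 53676569167927443456), (nat_lit 39, nat_lit 16699522446797045760), (nat_lit 46, nat_lit 125597898777762463744), (nat_lit 53, nat_lit 43918062380145180672)], FastCell.sprN 57 [(nat_lit 5, nat_lit 71207747196916072448), (nat_lit 6, nat_lit 126218410953405366272), (nat_lit 7, nat_lit 55012600364759252992), (nat_lit 11, nat_lit 789654207945768960), (nat_lit 18, nat_lit 23585017610111025152), (nat_lit 24, nat_lit 1842526485206794240), (nat_lit 29, nat_lit 53676569167927443456), (nat_lit 35, nat_lit 26253994347871600640), (nat_lit 39, nat_lit 16699522446797045760), (nat_lit 46, nat_lit 125597898777762463744), (nat_lit 53, nat_lit 43918062380145180672)]),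 (FastCell.sprN 57 [(nat_lit 8, nat_lit 110422352288045596672), (nat_lit 9, nat_lit 5625688437932687360), (nat_lit 11, nat_lit 157507424991351668736), (nat_lit 18, nat_lit 395329279070694277120), (nat_lit 21, nat_lit 242856282827014537216), (nat_lit 26, nat_lit 501104857621093941248), (nat_lit 27, nat_lit 680680753670914048), (nat_lit 28, nat_lit 243279102811983314944), (nat_lit 40, nat_lit 8349761223398522880), (nat_lit 47, nat_lit 62798949388881231872), (nat_lit 54, nat_lit 21959031190072590336)], FastCell.sprN 57 [(nat_lit 6, nat_lit 112951222591626936320), (nat_lit 10, nat_lit 3094475034270367744), (nat_lit 14, nat_lit 136664961169389256704), (nat_lit 15, nat_lit 470684125938843648), (nat_lit 16, nat_lit 70134741229662896128), (nat_lit 20, nat_lit 552111761440227983360), (nat_lit 22, nat_lit 8034538523979677696), (nat_lit 24, nat_lit 375094257725076406272), (nat_lit 30, nat_lit 789282919187797245952), (nat_lit 34, nat_lit 180814958490109870080)], FastCell.sprN 57 [(nat_lit 6, nat_lit 112951222591626936320), (nat_lit 8, nat_lit 110422352288045596672),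 (nat_lit 9, nat_lit 5625688437932687360), (nat_lit 10, nat_lit 3094475034270367744), (nat_lit 11, nat_lit 157507424991351668736), (nat_lit 14, nat_lit 136664961169389256704), (nat_lit 15, nat_lit 470684125938843648), (nat_lit 16, nat_lit 70134741229662896128), (nat_lit 18, nat_lit 395329279070694277120), (nat_lit 20, nat_lit 552111761440227983360), (nat_lit 21, nat_lit 242856282827014537216), (nat_lit 22, nat_lit 8034538523979677696), (nat_lit 24, nat_lit 375094257725076406272), (nat_lit 26, nat_lit 501104857621093941248), (nat_lit 27, nat_lit 680680753670914048), (nat_lit 28, nat_lit 243279102811983314944), (nat_lit 30, nat_lit 789282919187797245952), (nat_lit 34, nat_lit 180814958490109870080), (nat_lit 40, nat_lit 8349761223398522880), (nat_lit 47, nat_lit 62798949388881231872), (nat_lit 54, nat_lit 21959031190072590336)]), (FastCell.sprN 57 [(nat_lit 18, nat_lit 35765734704490217472), (nat_lit 24, nat_lit 26734124922591772672)], FastCell.sprN 57 [(nat_lit 11, nat_lit 11457482109682188288), (nat_lit 29, nat_lit 80472903085102989312)], FastCell.sprN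 57 [(nat_lit 11, nat_lit 11457482109682188288), (nat_lit 18, nat_lit 35765734704490217472), (nat_lit 24, nat_lit 26734124922591772672), (nat_lit 29, nat_lit 80472903085102989312)]), z57, (FastCell.sprN 57 [(nat_lit 9, nat_lit 7736187585675919360), (nat_lit 12, nat_lit 1334207785646161920), (nat_lit 18, nat_lit 14060442416964435968)], FastCell.sprN 57 [(nat_lit 2, nat_lit 117671031484710912), (nat_lit 6, nat_lit 6879886589934174208), (nat_lit 25, nat_lit 1531531695759556608)], FastCell.sprN 57 [(nat_lit 2, nat_lit 117671031484710912), (nat_lit 6, nat_lit 6879886589934174208), (nat_lit 9, nat_lit 7736187585675919360), (nat_lit 12, nat_lit 1334207785646161920), (nat_lit 18, nat_lit 14060442416964435968), (nat_lit 25, nat_lit 1531531695759556608)]), z57⟩,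
  ⟨(FastCell.sprN 57 [(nat_lit 11, nat_lit 870481333854404608), (nat_lit 16, nat_lit 263218069315256320), (nat_lit 32, nat_lit 2386726758897418240)], FastCell.sprN 57 [(nat_lit 24, nat_lit 4372912068282548224)], FastCell.sprN 57 [(nat_lit 11, nat_lit 870481333854404608), (nat_lit 16, nat_lit 263218069315256320), (nat_lit 24, nat_lit 4372912068282548224), (nat_lit 32, nat_lit 2386726758897418240)]), (FastCell.sprN 57 [(nat_lit 11, nat_lit 112951222591626936320), (nat_lit 19, nat_lit 91109974112926171136), (nat_lit 23, nat_lit 35067370614831448064), (nat_lit 42, nat_lit 16699522446797045760), (nat_lit 48, nat_lit 125597898777762463744), (nat_lit 55, nat_lit 43918062380145180672)], FastCell.sprN 57 [(nat_lit 13, nat_lit 110422352288045596672), (nat_lit 16, nat_lit 113664301703098269696), (nat_lit 26, nat_lit 121428141413507268608), (nat_lit 31, nat_lit 40181101886691082240)], FastCell.sprN 57 [(nat_lit 11, nat_lit 112951222591626936320), (nat_lit 13, nat_lit 110422352288045596672), (nat_lit 16, nat_lit 113664301703098269696), (nat_lit 19, nat_lit 91109974112926171136),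 (nat_lit 23, nat_lit 35067370614831448064), (nat_lit 26, nat_lit 121428141413507268608), (nat_lit 31, nat_lit 40181101886691082240), (nat_lit 42, nat_lit 16699522446797045760), (nat_lit 48, nat_lit 125597898777762463744), (nat_lit 55, nat_lit 43918062380145180672)]), (FastCell.sprN 57 [(nat_lit 16, nat_lit 11457482109682188288), (nat_lit 40, nat_lit 8349761223398522880), (nat_lit 47, nat_lit 62798949388881231872), (nat_lit 54, nat_lit 21959031190072590336)], FastCell.sprN 57 [(nat_lit 11, nat_lit 3247256890823933952), (nat_lit 24, nat_lit 26824301028367663104)], FastCell.sprN 57 [(nat_lit 11, nat_lit 3247256890823933952), (nat_lit 16, nat_lit 11457482109682188288), (nat_lit 24, nat_lit 26824301028367663104), (nat_lit 40, nat_lit 8349761223398522880), (nat_lit 47, nat_lit 62798949388881231872), (nat_lit 54, nat_lit 21959031190072590336)]), z57, (FastCell.sprN 57 [(nat_lit 3, nat_lit 773618758567591936), (nat_lit 6, nat_lit 117671031484710912), (nat_lit 11, nat_lit 2008634630994919424)], FastCell.sprN 57 [(nat_lit 1, nat_lit 1406422109483171840),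 (nat_lit 18, nat_lit 170170188417728512)], FastCell.sprN 57 [(nat_lit 1, nat_lit 1406422109483171840), (nat_lit 3, nat_lit 773618758567591936), (nat_lit 6, nat_lit 117671031484710912), (nat_lit 11, nat_lit 2008634630994919424), (nat_lit 18, nat_lit 170170188417728512)]), z57, z57⟩⟩

theorem eFqn : vfam B 3 q sn = some Fqn := by decide +kernel

theorem fitqn : famFits 162 57 4722366482869645213696 47220265384565300831338 318289194332078162217408372 Fqn = true := by decide +kernel

/-- Data. -/
noncomputable def Fqp : VFam := ⟨⟨(FastCell.sprN 57 [(nat_lit 11, nat_lit 4611686018427387904), (nat_lit 40, nat_lit 3191159038775656448), (nat_lit 43, nat_lit 3191159038775656448), (nat_lit 47, nat_lit 43300833871282569216), (nat_lit 49, nat_lit 43300833871282569216)], FastCell.sprN 57 [(nat_lit 23, nat_lit 3247256890823933952)], FastCell.sprN 57 [(nat_lit 11, nat_lit 4611686018427387904), (nat_lit 23, nat_lit 3247256890823933952), (nat_lit 40, nat_lit 3191159038775656448), (nat_lit 43, nat_lit 3191159038775656448), (nat_lit 47, nat_lit 43300833871282569216),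 (nat_lit 49, nat_lit 43300833871282569216)]), (FastCell.sprN 57 [(nat_lit 42, nat_lit 6382318077551312896), (nat_lit 48, nat_lit 86601667742565138432)], FastCell.sprN 57 [(nat_lit 16, nat_lit 6494513781647867904)], FastCell.sprN 57 [(nat_lit 16, nat_lit 6494513781647867904), (nat_lit 42, nat_lit 6382318077551312896), (nat_lit 48, nat_lit 86601667742565138432)]), (FastCell.sprN 57 [(nat_lit 40, nat_lit 3191159038775656448), (nat_lit 41, nat_lit 319114271235942383616), (nat_lit 47, nat_lit 43300833871282569216)], FastCell.sprN 57 [(nat_lit 11, nat_lit 3247256890823933952)], FastCell.sprN 57 [(nat_lit 11, nat_lit 3247256890823933952), (nat_lit 40, nat_lit 3191159038775656448), (nat_lit 41, nat_lit 319114271235942383616), (nat_lit 47, nat_lit 43300833871282569216)]), z57, z57, z57, z57⟩,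
  ⟨(FastCell.sprN 57 [(nat_lit 11, nat_lit 3741204684572983296), (nat_lit 24, nat_lit 4372912068282548224), (nat_lit 36, nat_lit 3191159038775656448), (nat_lit 43, nat_lit 43300833871282569216)], FastCell.sprN 57 [(nat_lit 16, nat_lit 263218069315256320), (nat_lit 23, nat_lit 3247256890823933952), (nat_lit 32, nat_lit 2386726758897418240), (nat_lit 37, nat_lit 3191159038775656448), (nat_lit 44, nat_lit 43300833871282569216)], FastCell.sprN 57 [(nat_lit 11, nat_lit 3741204684572983296), (nat_lit 16, nat_lit 263218069315256320), (nat_lit 23, nat_lit 3247256890823933952), (nat_lit 24, nat_lit 4372912068282548224), (nat_lit 32, nat_lit 2386726758897418240), (nat_lit 36, nat_lit 3191159038775656448), (nat_lit 37, nat_lit 3191159038775656448), (nat_lit 43, nat_lit 43300833871282569216), (nat_lit 44, nat_lit 43300833871282569216)]), (FastCell.sprN 57 [(nat_lit 13, nat_lit 110422352288045596672), (nat_lit 16, nat_lit 107169787921450401792), (nat_lit 26, nat_lit 121428141413507268608), (nat_lit 31, nat_lit 40181101886691082240)], FastCell.sprN 57 [(nat_lit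 11, nat_lit 112951222591626936320), (nat_lit 19, nat_lit 91109974112926171136), (nat_lit 23, nat_lit 35067370614831448064)], FastCell.sprN 57 [(nat_lit 11, nat_lit 112951222591626936320), (nat_lit 13, nat_lit 110422352288045596672), (nat_lit 16, nat_lit 107169787921450401792), (nat_lit 19, nat_lit 91109974112926171136), (nat_lit 23, nat_lit 35067370614831448064), (nat_lit 26, nat_lit 121428141413507268608), (nat_lit 31, nat_lit 40181101886691082240)]), (FastCell.sprN 57 [(nat_lit 24, nat_lit 26824301028367663104)], FastCell.sprN 57 [(nat_lit 16, nat_lit 11457482109682188288)], FastCell.sprN 57 [(nat_lit 16, nat_lit 11457482109682188288), (nat_lit 24, nat_lit 26824301028367663104)]), z57, (FastCell.sprN 57 [(nat_lit 1, nat_lit 1406422109483171840), (nat_lit 18, nat_lit 170170188417728512)], FastCell.sprN 57 [(nat_lit 3, nat_lit 773618758567591936), (nat_lit 6, nat_lit 117671031484710912), (nat_lit 11, nat_lit 2008634630994919424)], FastCell.sprN 57 [(nat_lit 1, nat_lit 1406422109483171840), (nat_lit 3, nat_lit 773618758567591936), (nat_lit 6, nat_lit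 117671031484710912), (nat_lit 11, nat_lit 2008634630994919424), (nat_lit 18, nat_lit 170170188417728512)]), z57, z57⟩,
  ⟨(FastCell.sprN 57 [(nat_lit 11, nat_lit 313119638617587712), (nat_lit 24, nat_lit 2464551195860008960), (nat_lit 28, nat_lit 60927591091011584)], FastCell.sprN 57 [(nat_lit 17, nat_lit 20963637661270016), (nat_lit 21, nat_lit 1301753809093001216), (nat_lit 26, nat_lit 1293028854687858688), (nat_lit 32, nat_lit 2779562254322892800), (nat_lit 33, nat_lit 7241240652611059712), (nat_lit 38, nat_lit 4696539779255238656)], FastCell.sprN 57 [(nat_lit 11, nat_lit 313119638617587712), (nat_lit 17, nat_lit 20963637661270016), (nat_lit 21, nat_lit 1301753809093001216), (nat_lit 24, nat_lit 2464551195860008960), (nat_lit 26, nat_lit 1293028854687858688), (nat_lit 28, nat_lit 60927591091011584), (nat_lit 32, nat_lit 2779562254322892800), (nat_lit 33, nat_lit 7241240652611059712), (nat_lit 38, nat_lit 4696539779255238656)]), (FastCell.sprN 57 [(nat_lit 5, nat_lit 71207747196916072448), (nat_lit 7, nat_lit 55012600364759252992), (nat_lit 18,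 nat_lit 23585017610111025152), (nat_lit 24, nat_lit 1842526485206794240), (nat_lit 35, nat_lit 26253994347871600640)], FastCell.sprN 57 [(nat_lit 6, nat_lit 126218410953405366272), (nat_lit 11, nat_lit 789654207945768960), (nat_lit 29, nat_lit 53676569167927443456), (nat_lit 39, nat_lit 6382318077551312896), (nat_lit 46, nat_lit 86601667742565138432)], FastCell.sprN 57 [(nat_lit 5, nat_lit 71207747196916072448), (nat_lit 6, nat_lit 126218410953405366272), (nat_lit 7, nat_lit 55012600364759252992), (nat_lit 11, nat_lit 789654207945768960), (nat_lit 18, nat_lit 23585017610111025152), (nat_lit 24, nat_lit 1842526485206794240), (nat_lit 29, nat_lit 53676569167927443456), (nat_lit 35, nat_lit 26253994347871600640), (nat_lit 39, nat_lit 6382318077551312896), (nat_lit 46, nat_lit 86601667742565138432)]), (FastCell.sprN 57 [(nat_lit 8, nat_lit 110422352288045596672), (nat_lit 9, nat_lit 5625688437932687360), (nat_lit 11, nat_lit 157507424991351668736), (nat_lit 18, nat_lit 395329279070694277120), (nat_lit 21, nat_lit 242856282827014537216), (nat_lit 26,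 nat_lit 501104857621093941248), (nat_lit 27, nat_lit 680680753670914048), (nat_lit 28, nat_lit 243279102811983314944), (nat_lit 40, nat_lit 3191159038775656448), (nat_lit 41, nat_lit 319114271235942383616), (nat_lit 47, nat_lit 43300833871282569216)], FastCell.sprN 57 [(nat_lit 6, nat_lit 112951222591626936320), (nat_lit 10, nat_lit 3094475034270367744), (nat_lit 14, nat_lit 136664961169389256704), (nat_lit 15, nat_lit 470684125938843648), (nat_lit 16, nat_lit 70134741229662896128), (nat_lit 20, nat_lit 552111761440227983360), (nat_lit 22, nat_lit 8034538523979677696), (nat_lit 24, nat_lit 375094257725076406272), (nat_lit 30, nat_lit 789282919187797245952), (nat_lit 34, nat_lit 180814958490109870080), (nat_lit 39, nat_lit 319114271235942383616)], FastCell.sprN 57 [(nat_lit 6, nat_lit 112951222591626936320), (nat_lit 8, nat_lit 110422352288045596672), (nat_lit 9, nat_lit 5625688437932687360), (nat_lit 10, nat_lit 3094475034270367744), (nat_lit 11, nat_lit 157507424991351668736), (nat_lit 14, nat_lit 136664961169389256704), (nat_lit 15, nat_lit 470684125938843648),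 (nat_lit 16, nat_lit 70134741229662896128), (nat_lit 18, nat_lit 395329279070694277120), (nat_lit 20, nat_lit 552111761440227983360), (nat_lit 21, nat_lit 242856282827014537216), (nat_lit 22, nat_lit 8034538523979677696), (nat_lit 24, nat_lit 375094257725076406272), (nat_lit 26, nat_lit 501104857621093941248), (nat_lit 27, nat_lit 680680753670914048), (nat_lit 28, nat_lit 243279102811983314944), (nat_lit 30, nat_lit 789282919187797245952), (nat_lit 34, nat_lit 180814958490109870080), (nat_lit 39, nat_lit 319114271235942383616), (nat_lit 40, nat_lit 3191159038775656448), (nat_lit 41, nat_lit 319114271235942383616), (nat_lit 47, nat_lit 43300833871282569216)]), (FastCell.sprN 57 [(nat_lit 18, nat_lit 35765734704490217472), (nat_lit 24, nat_lit 26734124922591772672)], FastCell.sprN 57 [(nat_lit 11, nat_lit 11457482109682188288), (nat_lit 29, nat_lit 80472903085102989312)], FastCell.sprN 57 [(nat_lit 11, nat_lit 11457482109682188288), (nat_lit 18, nat_lit 35765734704490217472), (nat_lit 24, nat_lit 26734124922591772672), (nat_lit 29, nat_lit 80472903085102989312)]),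 z57, (FastCell.sprN 57 [(nat_lit 9, nat_lit 7736187585675919360), (nat_lit 12, nat_lit 1334207785646161920), (nat_lit 18, nat_lit 14060442416964435968)], FastCell.sprN 57 [(nat_lit 2, nat_lit 117671031484710912), (nat_lit 6, nat_lit 6879886589934174208), (nat_lit 25, nat_lit 1531531695759556608)], FastCell.sprN 57 [(nat_lit 2, nat_lit 117671031484710912), (nat_lit 6, nat_lit 6879886589934174208), (nat_lit 9, nat_lit 7736187585675919360), (nat_lit 12, nat_lit 1334207785646161920), (nat_lit 18, nat_lit 14060442416964435968), (nat_lit 25, nat_lit 1531531695759556608)]), z57⟩,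
  ⟨(FastCell.sprN 57 [(nat_lit 11, nat_lit 870481333854404608), (nat_lit 16, nat_lit 263218069315256320), (nat_lit 32, nat_lit 2386726758897418240)], FastCell.sprN 57 [(nat_lit 24, nat_lit 4372912068282548224)], FastCell.sprN 57 [(nat_lit 11, nat_lit 870481333854404608), (nat_lit 16, nat_lit 263218069315256320), (nat_lit 24, nat_lit 4372912068282548224), (nat_lit 32, nat_lit 2386726758897418240)]), (FastCell.sprN 57 [(nat_lit 11, nat_lit 112951222591626936320), (nat_lit 19, nat_lit 91109974112926171136), (nat_lit 23, nat_lit 35067370614831448064), (nat_lit 42, nat_lit 6382318077551312896), (nat_lit 48, nat_lit 86601667742565138432)], FastCell.sprN 57 [(nat_lit 13, nat_lit 110422352288045596672), (nat_lit 16, nat_lit 113664301703098269696), (nat_lit 26, nat_lit 121428141413507268608), (nat_lit 31, nat_lit 40181101886691082240)], FastCell.sprN 57 [(nat_lit 11, nat_lit 112951222591626936320), (nat_lit 13, nat_lit 110422352288045596672), (nat_lit 16, nat_lit 113664301703098269696), (nat_lit 19, nat_lit 91109974112926171136), (nat_lit 23, nat_lit 35067370614831448064),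 (nat_lit 26, nat_lit 121428141413507268608), (nat_lit 31, nat_lit 40181101886691082240), (nat_lit 42, nat_lit 6382318077551312896), (nat_lit 48, nat_lit 86601667742565138432)]), (FastCell.sprN 57 [(nat_lit 16, nat_lit 11457482109682188288), (nat_lit 40, nat_lit 3191159038775656448), (nat_lit 41, nat_lit 319114271235942383616), (nat_lit 47, nat_lit 43300833871282569216)], FastCell.sprN 57 [(nat_lit 11, nat_lit 3247256890823933952), (nat_lit 24, nat_lit 26824301028367663104)], FastCell.sprN 57 [(nat_lit 11, nat_lit 3247256890823933952), (nat_lit 16, nat_lit 11457482109682188288), (nat_lit 24, nat_lit 26824301028367663104), (nat_lit 40, nat_lit 3191159038775656448), (nat_lit 41, nat_lit 319114271235942383616), (nat_lit 47, nat_lit 43300833871282569216)]), z57, (FastCell.sprN 57 [(nat_lit 3, nat_lit 773618758567591936), (nat_lit 6, nat_lit 117671031484710912), (nat_lit 11, nat_lit 2008634630994919424)], FastCell.sprN 57 [(nat_lit 1, nat_lit 1406422109483171840), (nat_lit 18, nat_lit 170170188417728512)], FastCell.sprN 57 [(nat_lit 1, nat_lit 1406422109483171840),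 (nat_lit 3, nat_lit 773618758567591936), (nat_lit 6, nat_lit 117671031484710912), (nat_lit 11, nat_lit 2008634630994919424), (nat_lit 18, nat_lit 170170188417728512)]), z57, z57⟩⟩

theorem eFqp : vfam B 3 q sp = some Fqp := by decide +kernel

theorem fitqp : famFits 162 57 4722366482869645213696 47220265384565300831338 318289194332078162217408372 Fqp = true := by decide +kernel

/-- Data. -/
noncomputable def Frn : VFam := ⟨⟨(FastCell.sprN 57 [(nat_lit 11, nat_lit 4611686018427387904), (nat_lit 40, nat_lit 8934241960891514880), (nat_lit 43, nat_lit 8349761223398522880), (nat_lit 47, nat_lit 67194856681384476672), (nat_lit 49, nat_lit 62798949388881231872), (nat_lit 54, nat_lit 23496156672013172736), (nat_lit 56, nat_lit 21959031190072590336)], FastCell.sprN 57 [(nat_lit 23, nat_lit 2881042591615287296)], FastCell.sprN 57 [(nat_lit 11, nat_lit 4611686018427387904), (nat_lit 23, nat_lit 2881042591615287296), (nat_lit 40, nat_lit 8934241960891514880), (nat_lit 43, nat_lit 8349761223398522880), (nat_lit 47, nat_lit 67194856681384476672), (nat_lit 49,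 nat_lit 62798949388881231872), (nat_lit 54, nat_lit 23496156672013172736), (nat_lit 56, nat_lit 21959031190072590336)]), (FastCell.sprN 57 [(nat_lit 42, nat_lit 16699522446797045760), (nat_lit 48, nat_lit 125597898777762463744), (nat_lit 55, nat_lit 43918062380145180672)], FastCell.sprN 57 [(nat_lit 16, nat_lit 5762085183230574592)], FastCell.sprN 57 [(nat_lit 16, nat_lit 5762085183230574592), (nat_lit 42, nat_lit 16699522446797045760), (nat_lit 48, nat_lit 125597898777762463744), (nat_lit 55, nat_lit 43918062380145180672)]), (FastCell.sprN 57 [(nat_lit 40, nat_lit 8349761223398522880), (nat_lit 47, nat_lit 62798949388881231872), (nat_lit 54, nat_lit 21959031190072590336)], FastCell.sprN 57 [(nat_lit 11, nat_lit 2881042591615287296)], FastCell.sprN 57 [(nat_lit 11, nat_lit 2881042591615287296), (nat_lit 40, nat_lit 8349761223398522880), (nat_lit 47, nat_lit 62798949388881231872), (nat_lit 54, nat_lit 21959031190072590336)]), z57, z57, z57, z57⟩,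
  ⟨(FastCell.sprN 57 [(nat_lit 11, nat_lit 3901425802440343552), (nat_lit 24, nat_lit 3658631917525270528), (nat_lit 36, nat_lit 8349761223398522880), (nat_lit 43, nat_lit 62798949388881231872), (nat_lit 50, nat_lit 21959031190072590336)], FastCell.sprN 57 [(nat_lit 16, nat_lit 29736602284589056), (nat_lit 23, nat_lit 2881042591615287296), (nat_lit 32, nat_lit 1173237710307983360), (nat_lit 37, nat_lit 8934241960891514880), (nat_lit 44, nat_lit 67194856681384476672), (nat_lit 51, nat_lit 23496156672013172736)], FastCell.sprN 57 [(nat_lit 11, nat_lit 3901425802440343552), (nat_lit 16, nat_lit 29736602284589056), (nat_lit 23, nat_lit 2881042591615287296), (nat_lit 24, nat_lit 3658631917525270528), (nat_lit 32, nat_lit 1173237710307983360), (nat_lit 36, nat_lit 8349761223398522880), (nat_lit 37, nat_lit 8934241960891514880), (nat_lit 43, nat_lit 62798949388881231872), (nat_lit 44, nat_lit 67194856681384476672), (nat_lit 50, nat_lit 21959031190072590336), (nat_lit 51, nat_lit 23496156672013172736)]), (FastCell.sprN 57 [(nat_lit 13, nat_lit 20589720123467628544),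 (nat_lit 16, nat_lit 116271726642843353088), (nat_lit 26, nat_lit 110152338839586209792), (nat_lit 31, nat_lit 166434310296835194880)], FastCell.sprN 57 [(nat_lit 11, nat_lit 22209631725656473600), (nat_lit 19, nat_lit 101533968649951379456), (nat_lit 23, nat_lit 162021929978773372928)], FastCell.sprN 57 [(nat_lit 11, nat_lit 22209631725656473600), (nat_lit 13, nat_lit 20589720123467628544), (nat_lit 16, nat_lit 116271726642843353088), (nat_lit 19, nat_lit 101533968649951379456), (nat_lit 23, nat_lit 162021929978773372928), (nat_lit 26, nat_lit 110152338839586209792), (nat_lit 31, nat_lit 166434310296835194880)]), (FastCell.sprN 57 [(nat_lit 24, nat_lit 15460831569496768512)], FastCell.sprN 57 [(nat_lit 16, nat_lit 7144056078257356800)], FastCell.sprN 57 [(nat_lit 16, nat_lit 7144056078257356800), (nat_lit 24, nat_lit 15460831569496768512)]), z57, (FastCell.sprN 57 [(nat_lit 1, nat_lit 2138892585979084800), (nat_lit 6, nat_lit 337785403870281728), (nat_lit 18, nat_lit 4928040411663958016)], FastCell.sprN 57 [(nat_lit 3, nat_lit 1733760426312728576),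 (nat_lit 11, nat_lit 6625949798916685824)], FastCell.sprN 57 [(nat_lit 1, nat_lit 2138892585979084800), (nat_lit 3, nat_lit 1733760426312728576), (nat_lit 6, nat_lit 337785403870281728), (nat_lit 11, nat_lit 6625949798916685824), (nat_lit 18, nat_lit 4928040411663958016)]), z57, z57⟩,
  ⟨(FastCell.sprN 57 [(nat_lit 11, nat_lit 96493241385353216), (nat_lit 21, nat_lit 440063935064834048), (nat_lit 26, nat_lit 6669720780219088896), (nat_lit 28, nat_lit 69259475457933312), (nat_lit 32, nat_lit 9005887781108449280), (nat_lit 33, nat_lit 18150650840799510528), (nat_lit 38, nat_lit 14385868470198468608)], FastCell.sprN 57 [(nat_lit 17, nat_lit 147962261149843456), (nat_lit 24, nat_lit 9100501084169830400), (nat_lit 45, nat_lit 4395907292503244800), (nat_lit 52, nat_lit 1537125481940582400)], FastCell.sprN 57 [(nat_lit 11, nat_lit 96493241385353216), (nat_lit 17, nat_lit 147962261149843456), (nat_lit 21, nat_lit 440063935064834048), (nat_lit 24, nat_lit 9100501084169830400), (nat_lit 26, nat_lit 6669720780219088896), (nat_lit 28, nat_lit 69259475457933312),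 (nat_lit 32, nat_lit 9005887781108449280), (nat_lit 33, nat_lit 18150650840799510528), (nat_lit 38, nat_lit 14385868470198468608), (nat_lit 45, nat_lit 4395907292503244800), (nat_lit 52, nat_lit 1537125481940582400)]), (FastCell.sprN 57 [(nat_lit 5, nat_lit 68399544407372595200), (nat_lit 7, nat_lit 52449100270298726400), (nat_lit 18, nat_lit 19606349182010392576), (nat_lit 24, nat_lit 208156215992123392), (nat_lit 35, nat_lit 12905614813387816960)], FastCell.sprN 57 [(nat_lit 6, nat_lit 120846787778625667072), (nat_lit 11, nat_lit 89209806853767168), (nat_lit 29, nat_lit 39967113519575334912), (nat_lit 39, nat_lit 16699522446797045760), (nat_lit 46, nat_lit 125597898777762463744), (nat_lit 53, nat_lit 43918062380145180672)], FastCell.sprN 57 [(nat_lit 5, nat_lit 68399544407372595200), (nat_lit 6, nat_lit 120846787778625667072), (nat_lit 7, nat_lit 52449100270298726400), (nat_lit 11, nat_lit 89209806853767168), (nat_lit 18, nat_lit 19606349182010392576), (nat_lit 24, nat_lit 208156215992123392), (nat_lit 29, nat_lit 39967113519575334912), (nat_lit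 35, nat_lit 12905614813387816960), (nat_lit 39, nat_lit 16699522446797045760), (nat_lit 46, nat_lit 125597898777762463744), (nat_lit 53, nat_lit 43918062380145180672)]), (FastCell.sprN 57 [(nat_lit 8, nat_lit 20589720123467628544), (nat_lit 9, nat_lit 8555570343916339200), (nat_lit 11, nat_lit 171526547372649742336), (nat_lit 15, nat_lit 1351141615481126912), (nat_lit 18, nat_lit 77733711039797657600), (nat_lit 21, nat_lit 220304677679172419584), (nat_lit 26, nat_lit 558436827574732587008), (nat_lit 27, nat_lit 19712161646655832064), (nat_lit 28, nat_lit 1066379685816212389888), (nat_lit 40, nat_lit 8349761223398522880), (nat_lit 47, nat_lit 62798949388881231872), (nat_lit 54, nat_lit 21959031190072590336)], FastCell.sprN 57 [(nat_lit 6, nat_lit 22209631725656473600), (nat_lit 10, nat_lit 6935041705250914304), (nat_lit 14, nat_lit 152300952974927069184), (nat_lit 16, nat_lit 324043859957546745856), (nat_lit 20, nat_lit 102948600617338142720), (nat_lit 22, nat_lit 26503799195666743296), (nat_lit 24, nat_lit 406951043249951735808), (nat_lit 30, nat_lit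 715990202457310363648), (nat_lit 34, nat_lit 748954396335758376960)], FastCell.sprN 57 [(nat_lit 6, nat_lit 22209631725656473600), (nat_lit 8, nat_lit 20589720123467628544), (nat_lit 9, nat_lit 8555570343916339200), (nat_lit 10, nat_lit 6935041705250914304), (nat_lit 11, nat_lit 171526547372649742336), (nat_lit 14, nat_lit 152300952974927069184), (nat_lit 15, nat_lit 1351141615481126912), (nat_lit 16, nat_lit 324043859957546745856), (nat_lit 18, nat_lit 77733711039797657600), (nat_lit 20, nat_lit 102948600617338142720), (nat_lit 21, nat_lit 220304677679172419584), (nat_lit 22, nat_lit 26503799195666743296), (nat_lit 24, nat_lit 406951043249951735808), (nat_lit 26, nat_lit 558436827574732587008), (nat_lit 27, nat_lit 19712161646655832064), (nat_lit 28, nat_lit 1066379685816212389888), (nat_lit 30, nat_lit 715990202457310363648), (nat_lit 34, nat_lit 748954396335758376960), (nat_lit 40, nat_lit 8349761223398522880), (nat_lit 47, nat_lit 62798949388881231872), (nat_lit 54, nat_lit 21959031190072590336)]), (FastCell.sprN 57 [(nat_lit 18, nat_lit 20614442092662358016),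 (nat_lit 24, nat_lit 16669464182600499200)], FastCell.sprN 57 [(nat_lit 11, nat_lit 7144056078257356800), (nat_lit 29, nat_lit 46382494708490305536)], FastCell.sprN 57 [(nat_lit 11, nat_lit 7144056078257356800), (nat_lit 18, nat_lit 20614442092662358016), (nat_lit 24, nat_lit 16669464182600499200), (nat_lit 29, nat_lit 46382494708490305536)]), z57, (FastCell.sprN 57 [(nat_lit 2, nat_lit 337785403870281728), (nat_lit 9, nat_lit 17337604263127285760), (nat_lit 12, nat_lit 12419623407899901952), (nat_lit 18, nat_lit 46381648592416800768)], FastCell.sprN 57 [(nat_lit 6, nat_lit 20947307957239939072), (nat_lit 25, nat_lit 44352363704975622144)], FastCell.sprN 57 [(nat_lit 2, nat_lit 337785403870281728), (nat_lit 6, nat_lit 20947307957239939072), (nat_lit 9, nat_lit 17337604263127285760), (nat_lit 12, nat_lit 12419623407899901952), (nat_lit 18, nat_lit 46381648592416800768), (nat_lit 25, nat_lit 44352363704975622144)]), z57⟩,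
  ⟨(FastCell.sprN 57 [(nat_lit 11, nat_lit 710260215987044352), (nat_lit 16, nat_lit 29736602284589056), (nat_lit 32, nat_lit 1173237710307983360), (nat_lit 37, nat_lit 584480737492992000), (nat_lit 40, nat_lit 584480737492992000), (nat_lit 44, nat_lit 4395907292503244800), (nat_lit 47, nat_lit 4395907292503244800), (nat_lit 51, nat_lit 1537125481940582400), (nat_lit 54, nat_lit 1537125481940582400)], FastCell.sprN 57 [(nat_lit 24, nat_lit 3658631917525270528)], FastCell.sprN 57 [(nat_lit 11, nat_lit 710260215987044352), (nat_lit 16, nat_lit 29736602284589056), (nat_lit 24, nat_lit 3658631917525270528), (nat_lit 32, nat_lit 1173237710307983360), (nat_lit 37, nat_lit 584480737492992000), (nat_lit 40, nat_lit 584480737492992000), (nat_lit 44, nat_lit 4395907292503244800), (nat_lit 47, nat_lit 4395907292503244800), (nat_lit 51, nat_lit 1537125481940582400), (nat_lit 54, nat_lit 1537125481940582400)]), (FastCell.sprN 57 [(nat_lit 11, nat_lit 22209631725656473600), (nat_lit 19, nat_lit 101533968649951379456), (nat_lit 23, nat_lit 162021929978773372928),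 (nat_lit 42, nat_lit 16699522446797045760), (nat_lit 48, nat_lit 125597898777762463744), (nat_lit 55, nat_lit 43918062380145180672)], FastCell.sprN 57 [(nat_lit 13, nat_lit 20589720123467628544), (nat_lit 16, nat_lit 122033811826073927680), (nat_lit 26, nat_lit 110152338839586209792), (nat_lit 31, nat_lit 166434310296835194880)], FastCell.sprN 57 [(nat_lit 11, nat_lit 22209631725656473600), (nat_lit 13, nat_lit 20589720123467628544), (nat_lit 16, nat_lit 122033811826073927680), (nat_lit 19, nat_lit 101533968649951379456), (nat_lit 23, nat_lit 162021929978773372928), (nat_lit 26, nat_lit 110152338839586209792), (nat_lit 31, nat_lit 166434310296835194880), (nat_lit 42, nat_lit 16699522446797045760), (nat_lit 48, nat_lit 125597898777762463744), (nat_lit 55, nat_lit 43918062380145180672)]), (FastCell.sprN 57 [(nat_lit 16, nat_lit 7144056078257356800), (nat_lit 40, nat_lit 8349761223398522880), (nat_lit 47, nat_lit 62798949388881231872), (nat_lit 54, nat_lit 21959031190072590336)], FastCell.sprN 57 [(nat_lit 11, nat_lit 2881042591615287296), (nat_lit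 24, nat_lit 15460831569496768512)], FastCell.sprN 57 [(nat_lit 11, nat_lit 2881042591615287296), (nat_lit 16, nat_lit 7144056078257356800), (nat_lit 24, nat_lit 15460831569496768512), (nat_lit 40, nat_lit 8349761223398522880), (nat_lit 47, nat_lit 62798949388881231872), (nat_lit 54, nat_lit 21959031190072590336)]), z57, (FastCell.sprN 57 [(nat_lit 3, nat_lit 1733760426312728576), (nat_lit 11, nat_lit 6625949798916685824)], FastCell.sprN 57 [(nat_lit 1, nat_lit 2138892585979084800), (nat_lit 6, nat_lit 337785403870281728), (nat_lit 18, nat_lit 4928040411663958016)], FastCell.sprN 57 [(nat_lit 1, nat_lit 2138892585979084800), (nat_lit 3, nat_lit 1733760426312728576), (nat_lit 6, nat_lit 337785403870281728), (nat_lit 11, nat_lit 6625949798916685824), (nat_lit 18, nat_lit 4928040411663958016)]), z57, z57⟩⟩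

theorem eFrn : vfam B 3 r sn = some Frn := by decide +kernel

theorem fitrn : famFits 162 57 4722366482869645213696 47220265384565300831338 318289194332078162217408372 Frn = true := by decide +kernel

/-- Data. -/
noncomputable def Frp : VFam := ⟨⟨(FastCell.sprN 57 [(nat_lit 11, nat_lit 4611686018427387904), (nat_lit 40, nat_lit 3414539197625499648), (nat_lit 43, nat_lit 3191159038775656448), (nat_lit 47, nat_lit 46331879027906543616), (nat_lit 49, nat_lit 43300833871282569216)], FastCell.sprN 57 [(nat_lit 23, nat_lit 2881042591615287296)], FastCell.sprN 57 [(nat_lit 11, nat_lit 4611686018427387904), (nat_lit 23, nat_lit 2881042591615287296), (nat_lit 40, nat_lit 3414539197625499648), (nat_lit 43, nat_lit 3191159038775656448), (nat_lit 47, nat_lit 46331879027906543616), (nat_lit 49, nat_lit 43300833871282569216)]), (FastCell.sprN 57 [(nat_lit 42, nat_lit 6382318077551312896), (nat_lit 48, nat_lit 86601667742565138432)], FastCell.sprN 57 [(nat_lit 16, nat_lit 5762085183230574592)], FastCell.sprN 57 [(nat_lit 16, nat_lit 5762085183230574592), (nat_lit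 42, nat_lit 6382318077551312896), (nat_lit 48, nat_lit 86601667742565138432)]), (FastCell.sprN 57 [(nat_lit 40, nat_lit 3191159038775656448), (nat_lit 41, nat_lit 319114271235942383616), (nat_lit 47, nat_lit 43300833871282569216)], FastCell.sprN 57 [(nat_lit 11, nat_lit 2881042591615287296)], FastCell.sprN 57 [(nat_lit 11, nat_lit 2881042591615287296), (nat_lit 40, nat_lit 3191159038775656448), (nat_lit 41, nat_lit 319114271235942383616), (nat_lit 47, nat_lit 43300833871282569216)]), z57, z57, z57, z57⟩,
  ⟨(FastCell.sprN 57 [(nat_lit 11, nat_lit 3901425802440343552), (nat_lit 24, nat_lit 3658631917525270528), (nat_lit 36, nat_lit 3191159038775656448), (nat_lit 43, nat_lit 43300833871282569216)], FastCell.sprN 57 [(nat_lit 16, nat_lit 29736602284589056), (nat_lit 23, nat_lit 2881042591615287296), (nat_lit 32, nat_lit 1173237710307983360), (nat_lit 37, nat_lit 3414539197625499648), (nat_lit 44, nat_lit 46331879027906543616)], FastCell.sprN 57 [(nat_lit 11, nat_lit 3901425802440343552), (nat_lit 16, nat_lit 29736602284589056), (nat_lit 23, nat_lit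 2881042591615287296), (nat_lit 24, nat_lit 3658631917525270528), (nat_lit 32, nat_lit 1173237710307983360), (nat_lit 36, nat_lit 3191159038775656448), (nat_lit 37, nat_lit 3414539197625499648), (nat_lit 43, nat_lit 43300833871282569216), (nat_lit 44, nat_lit 46331879027906543616)]), (FastCell.sprN 57 [(nat_lit 13, nat_lit 20589720123467628544), (nat_lit 16, nat_lit 116271726642843353088), (nat_lit 26, nat_lit 110152338839586209792), (nat_lit 31, nat_lit 166434310296835194880)], FastCell.sprN 57 [(nat_lit 11, nat_lit 22209631725656473600), (nat_lit 19, nat_lit 101533968649951379456), (nat_lit 23, nat_lit 162021929978773372928)], FastCell.sprN 57 [(nat_lit 11, nat_lit 22209631725656473600), (nat_lit 13, nat_lit 20589720123467628544), (nat_lit 16, nat_lit 116271726642843353088), (nat_lit 19, nat_lit 101533968649951379456), (nat_lit 23, nat_lit 162021929978773372928), (nat_lit 26, nat_lit 110152338839586209792), (nat_lit 31, nat_lit 166434310296835194880)]), (FastCell.sprN 57 [(nat_lit 24, nat_lit 15460831569496768512)], FastCell.sprN 57 [(nat_lit 16,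 nat_lit 7144056078257356800)], FastCell.sprN 57 [(nat_lit 16, nat_lit 7144056078257356800), (nat_lit 24, nat_lit 15460831569496768512)]), z57, (FastCell.sprN 57 [(nat_lit 1, nat_lit 2138892585979084800), (nat_lit 6, nat_lit 337785403870281728), (nat_lit 18, nat_lit 4928040411663958016)], FastCell.sprN 57 [(nat_lit 3, nat_lit 1733760426312728576), (nat_lit 11, nat_lit 6625949798916685824)], FastCell.sprN 57 [(nat_lit 1, nat_lit 2138892585979084800), (nat_lit 3, nat_lit 1733760426312728576), (nat_lit 6, nat_lit 337785403870281728), (nat_lit 11, nat_lit 6625949798916685824), (nat_lit 18, nat_lit 4928040411663958016)]), z57, z57⟩,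
  ⟨(FastCell.sprN 57 [(nat_lit 11, nat_lit 96493241385353216), (nat_lit 21, nat_lit 440063935064834048), (nat_lit 26, nat_lit 6669720780219088896), (nat_lit 28, nat_lit 69259475457933312), (nat_lit 32, nat_lit 9005887781108449280), (nat_lit 33, nat_lit 18150650840799510528), (nat_lit 38, nat_lit 14746969048841617408)], FastCell.sprN 57 [(nat_lit 17, nat_lit 147962261149843456), (nat_lit 24, nat_lit 9100501084169830400), (nat_lit 45, nat_lit 3031045156623974400)], FastCell.sprN 57 [(nat_lit 11, nat_lit 96493241385353216), (nat_lit 17, nat_lit 147962261149843456), (nat_lit 21, nat_lit 440063935064834048), (nat_lit 24, nat_lit 9100501084169830400), (nat_lit 26, nat_lit 6669720780219088896), (nat_lit 28, nat_lit 69259475457933312), (nat_lit 32, nat_lit 9005887781108449280), (nat_lit 33, nat_lit 18150650840799510528), (nat_lit 38, nat_lit 14746969048841617408), (nat_lit 45, nat_lit 3031045156623974400)]), (FastCell.sprN 57 [(nat_lit 5, nat_lit 68399544407372595200), (nat_lit 7, nat_lit 52449100270298726400), (nat_lit 18, nat_lit 19606349182010392576),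 (nat_lit 24, nat_lit 208156215992123392), (nat_lit 35, nat_lit 12905614813387816960)], FastCell.sprN 57 [(nat_lit 6, nat_lit 120846787778625667072), (nat_lit 11, nat_lit 89209806853767168), (nat_lit 29, nat_lit 39967113519575334912), (nat_lit 39, nat_lit 6382318077551312896), (nat_lit 46, nat_lit 86601667742565138432)], FastCell.sprN 57 [(nat_lit 5, nat_lit 68399544407372595200), (nat_lit 6, nat_lit 120846787778625667072), (nat_lit 7, nat_lit 52449100270298726400), (nat_lit 11, nat_lit 89209806853767168), (nat_lit 18, nat_lit 19606349182010392576), (nat_lit 24, nat_lit 208156215992123392), (nat_lit 29, nat_lit 39967113519575334912), (nat_lit 35, nat_lit 12905614813387816960), (nat_lit 39, nat_lit 6382318077551312896), (nat_lit 46, nat_lit 86601667742565138432)]), (FastCell.sprN 57 [(nat_lit 8, nat_lit 20589720123467628544), (nat_lit 9, nat_lit 8555570343916339200), (nat_lit 11, nat_lit 171526547372649742336), (nat_lit 15, nat_lit 1351141615481126912), (nat_lit 18, nat_lit 77733711039797657600), (nat_lit 21, nat_lit 220304677679172419584), (nat_lit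 26, nat_lit 558436827574732587008), (nat_lit 27, nat_lit 19712161646655832064), (nat_lit 28, nat_lit 1066379685816212389888), (nat_lit 40, nat_lit 3191159038775656448), (nat_lit 41, nat_lit 319114271235942383616), (nat_lit 47, nat_lit 43300833871282569216)], FastCell.sprN 57 [(nat_lit 6, nat_lit 22209631725656473600), (nat_lit 10, nat_lit 6935041705250914304), (nat_lit 14, nat_lit 152300952974927069184), (nat_lit 16, nat_lit 324043859957546745856), (nat_lit 20, nat_lit 102948600617338142720), (nat_lit 22, nat_lit 26503799195666743296), (nat_lit 24, nat_lit 406951043249951735808), (nat_lit 30, nat_lit 715990202457310363648), (nat_lit 34, nat_lit 748954396335758376960), (nat_lit 39, nat_lit 319114271235942383616)], FastCell.sprN 57 [(nat_lit 6, nat_lit 22209631725656473600), (nat_lit 8, nat_lit 20589720123467628544), (nat_lit 9, nat_lit 8555570343916339200), (nat_lit 10, nat_lit 6935041705250914304), (nat_lit 11, nat_lit 171526547372649742336), (nat_lit 14, nat_lit 152300952974927069184), (nat_lit 15, nat_lit 1351141615481126912), (nat_lit 16, nat_lit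 324043859957546745856), (nat_lit 18, nat_lit 77733711039797657600), (nat_lit 20, nat_lit 102948600617338142720), (nat_lit 21, nat_lit 220304677679172419584), (nat_lit 22, nat_lit 26503799195666743296), (nat_lit 24, nat_lit 406951043249951735808), (nat_lit 26, nat_lit 558436827574732587008), (nat_lit 27, nat_lit 19712161646655832064), (nat_lit 28, nat_lit 1066379685816212389888), (nat_lit 30, nat_lit 715990202457310363648), (nat_lit 34, nat_lit 748954396335758376960), (nat_lit 39, nat_lit 319114271235942383616), (nat_lit 40, nat_lit 3191159038775656448), (nat_lit 41, nat_lit 319114271235942383616), (nat_lit 47, nat_lit 43300833871282569216)]), (FastCell.sprN 57 [(nat_lit 18, nat_lit 20614442092662358016), (nat_lit 24, nat_lit 16669464182600499200)], FastCell.sprN 57 [(nat_lit 11, nat_lit 7144056078257356800), (nat_lit 29, nat_lit 46382494708490305536)], FastCell.sprN 57 [(nat_lit 11, nat_lit 7144056078257356800), (nat_lit 18, nat_lit 20614442092662358016), (nat_lit 24, nat_lit 16669464182600499200), (nat_lit 29, nat_lit 46382494708490305536)]), z57,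 (FastCell.sprN 57 [(nat_lit 2, nat_lit 337785403870281728), (nat_lit 9, nat_lit 17337604263127285760), (nat_lit 12, nat_lit 12419623407899901952), (nat_lit 18, nat_lit 46381648592416800768)], FastCell.sprN 57 [(nat_lit 6, nat_lit 20947307957239939072), (nat_lit 25, nat_lit 44352363704975622144)], FastCell.sprN 57 [(nat_lit 2, nat_lit 337785403870281728), (nat_lit 6, nat_lit 20947307957239939072), (nat_lit 9, nat_lit 17337604263127285760), (nat_lit 12, nat_lit 12419623407899901952), (nat_lit 18, nat_lit 46381648592416800768), (nat_lit 25, nat_lit 44352363704975622144)]), z57⟩,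
  ⟨(FastCell.sprN 57 [(nat_lit 11, nat_lit 710260215987044352), (nat_lit 16, nat_lit 29736602284589056), (nat_lit 32, nat_lit 1173237710307983360), (nat_lit 37, nat_lit 223380158849843200), (nat_lit 40, nat_lit 223380158849843200), (nat_lit 44, nat_lit 3031045156623974400), (nat_lit 47, nat_lit 3031045156623974400)], FastCell.sprN 57 [(nat_lit 24, nat_lit 3658631917525270528)], FastCell.sprN 57 [(nat_lit 11, nat_lit 710260215987044352), (nat_lit 16, nat_lit 29736602284589056), (nat_lit 24, nat_lit 3658631917525270528), (nat_lit 32, nat_lit 1173237710307983360), (nat_lit 37, nat_lit 223380158849843200), (nat_lit 40, nat_lit 223380158849843200), (nat_lit 44, nat_lit 3031045156623974400), (nat_lit 47, nat_lit 3031045156623974400)]), (FastCell.sprN 57 [(nat_lit 11, nat_lit 22209631725656473600), (nat_lit 19, nat_lit 101533968649951379456), (nat_lit 23, nat_lit 162021929978773372928), (nat_lit 42, nat_lit 6382318077551312896), (nat_lit 48, nat_lit 86601667742565138432)], FastCell.sprN 57 [(nat_lit 13, nat_lit 20589720123467628544), (nat_lit 16, nat_lit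 122033811826073927680), (nat_lit 26, nat_lit 110152338839586209792), (nat_lit 31, nat_lit 166434310296835194880)], FastCell.sprN 57 [(nat_lit 11, nat_lit 22209631725656473600), (nat_lit 13, nat_lit 20589720123467628544), (nat_lit 16, nat_lit 122033811826073927680), (nat_lit 19, nat_lit 101533968649951379456), (nat_lit 23, nat_lit 162021929978773372928), (nat_lit 26, nat_lit 110152338839586209792), (nat_lit 31, nat_lit 166434310296835194880), (nat_lit 42, nat_lit 6382318077551312896), (nat_lit 48, nat_lit 86601667742565138432)]), (FastCell.sprN 57 [(nat_lit 16, nat_lit 7144056078257356800), (nat_lit 40, nat_lit 3191159038775656448), (nat_lit 41, nat_lit 319114271235942383616), (nat_lit 47, nat_lit 43300833871282569216)], FastCell.sprN 57 [(nat_lit 11, nat_lit 2881042591615287296), (nat_lit 24, nat_lit 15460831569496768512)], FastCell.sprN 57 [(nat_lit 11, nat_lit 2881042591615287296), (nat_lit 16, nat_lit 7144056078257356800), (nat_lit 24, nat_lit 15460831569496768512), (nat_lit 40, nat_lit 3191159038775656448), (nat_lit 41, nat_lit 319114271235942383616),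 (nat_lit 47, nat_lit 43300833871282569216)]), z57, (FastCell.sprN 57 [(nat_lit 3, nat_lit 1733760426312728576), (nat_lit 11, nat_lit 6625949798916685824)], FastCell.sprN 57 [(nat_lit 1, nat_lit 2138892585979084800), (nat_lit 6, nat_lit 337785403870281728), (nat_lit 18, nat_lit 4928040411663958016)], FastCell.sprN 57 [(nat_lit 1, nat_lit 2138892585979084800), (nat_lit 3, nat_lit 1733760426312728576), (nat_lit 6, nat_lit 337785403870281728), (nat_lit 11, nat_lit 6625949798916685824), (nat_lit 18, nat_lit 4928040411663958016)]), z57, z57⟩⟩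

theorem eFrp : vfam B 3 r sp = some Frp := by decide +kernel

theorem fitrp : famFits 162 57 4722366482869645213696 47220265384565300831338 318289194332078162217408372 Frp = true := by decide +kernel

/-- Data. -/
noncomputable def Fsn : VFam := ⟨⟨(FastCell.sprN 57 [(nat_lit 11, nat_lit 4611686018427387904), (nat_lit 40, nat_lit 8934241960891514880), (nat_lit 43, nat_lit 8349761223398522880), (nat_lit 47, nat_lit 67194856681384476672), (nat_lit 49, nat_lit 62798949388881231872), (nat_lit 54, nat_lit 23496156672013172736), (nat_lit 56, nat_lit 21959031190072590336)], FastCell.sprN 57 [(nat_lit 23, nat_lit 3247256890823933952)], FastCell.sprN 57 [(nat_lit 11, nat_lit 4611686018427387904), (nat_lit 23, nat_lit 3247256890823933952), (nat_lit 40, nat_lit 8934241960891514880), (nat_lit 43, nat_lit 8349761223398522880), (nat_lit 47, nat_lit 67194856681384476672), (nat_lit 49, nat_lit 62798949388881231872), (nat_lit 54, nat_lit 23496156672013172736), (nat_lit 56, nat_lit 21959031190072590336)]), (FastCell.sprN 57 [(nat_lit 42, nat_lit 16699522446797045760),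 (nat_lit 48, nat_lit 125597898777762463744), (nat_lit 55, nat_lit 43918062380145180672)], FastCell.sprN 57 [(nat_lit 16, nat_lit 6494513781647867904)], FastCell.sprN 57 [(nat_lit 16, nat_lit 6494513781647867904), (nat_lit 42, nat_lit 16699522446797045760), (nat_lit 48, nat_lit 125597898777762463744), (nat_lit 55, nat_lit 43918062380145180672)]), (FastCell.sprN 57 [(nat_lit 40, nat_lit 8349761223398522880), (nat_lit 47, nat_lit 62798949388881231872), (nat_lit 54, nat_lit 21959031190072590336)], FastCell.sprN 57 [(nat_lit 11, nat_lit 3247256890823933952)], FastCell.sprN 57 [(nat_lit 11, nat_lit 3247256890823933952), (nat_lit 40, nat_lit 8349761223398522880), (nat_lit 47, nat_lit 62798949388881231872), (nat_lit 54, nat_lit 21959031190072590336)]), z57, z57, z57, z57⟩,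
  ⟨(FastCell.sprN 57 [(nat_lit 11, nat_lit 3774407956825636864), (nat_lit 24, nat_lit 3878967076999659520), (nat_lit 36, nat_lit 8349761223398522880), (nat_lit 43, nat_lit 62798949388881231872), (nat_lit 50, nat_lit 21959031190072590336)], FastCell.sprN 57 [(nat_lit 16, nat_lit 39771993087672320), (nat_lit 23, nat_lit 3247256890823933952), (nat_lit 32, nat_lit 1284213787573878784), (nat_lit 37, nat_lit 8934241960891514880), (nat_lit 44, nat_lit 67194856681384476672), (nat_lit 51, nat_lit 23496156672013172736)], FastCell.sprN 57 [(nat_lit 11, nat_lit 3774407956825636864), (nat_lit 16, nat_lit 39771993087672320), (nat_lit 23, nat_lit 3247256890823933952), (nat_lit 24, nat_lit 3878967076999659520), (nat_lit 32, nat_lit 1284213787573878784), (nat_lit 36, nat_lit 8349761223398522880), (nat_lit 37, nat_lit 8934241960891514880), (nat_lit 43, nat_lit 62798949388881231872), (nat_lit 44, nat_lit 67194856681384476672), (nat_lit 50, nat_lit 21959031190072590336), (nat_lit 51, nat_lit 23496156672013172736)]), (FastCell.sprN 57 [(nat_lit 13, nat_lit 43314638735838019584),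 (nat_lit 16, nat_lit 117279313716943257600), (nat_lit 26, nat_lit 111488525872863903744), (nat_lit 31, nat_lit 141857138073290145792)], FastCell.sprN 57 [(nat_lit 11, nat_lit 46035767883863162880), (nat_lit 19, nat_lit 98664050455276945408), (nat_lit 23, nat_lit 136444251149464240128)], FastCell.sprN 57 [(nat_lit 11, nat_lit 46035767883863162880), (nat_lit 13, nat_lit 43314638735838019584), (nat_lit 16, nat_lit 117279313716943257600), (nat_lit 19, nat_lit 98664050455276945408), (nat_lit 23, nat_lit 136444251149464240128), (nat_lit 26, nat_lit 111488525872863903744), (nat_lit 31, nat_lit 141857138073290145792)]), (FastCell.sprN 57 [(nat_lit 24, nat_lit 29229013904488660992)], FastCell.sprN 57 [(nat_lit 16, nat_lit 13850970976759578624)], FastCell.sprN 57 [(nat_lit 16, nat_lit 13850970976759578624), (nat_lit 24, nat_lit 29229013904488660992)]), z57, (FastCell.sprN 57 [(nat_lit 1, nat_lit 2471009927951286272), (nat_lit 18, nat_lit 2966881430036021248)], FastCell.sprN 57 [(nat_lit 3, nat_lit 1790451806334091264), (nat_lit 6, nat_lit 95607251909214208),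 (nat_lit 11, nat_lit 5338540185233653760)], FastCell.sprN 57 [(nat_lit 1, nat_lit 2471009927951286272), (nat_lit 3, nat_lit 1790451806334091264), (nat_lit 6, nat_lit 95607251909214208), (nat_lit 11, nat_lit 5338540185233653760), (nat_lit 18, nat_lit 2966881430036021248)]), z57, z57⟩,
  ⟨(FastCell.sprN 57 [(nat_lit 11, nat_lit 167549632375685120), (nat_lit 21, nat_lit 348910606117502976), (nat_lit 26, nat_lit 5188041025414758400), (nat_lit 28, nat_lit 69917500954902528), (nat_lit 32, nat_lit 7960167926844096512), (nat_lit 33, nat_lit 17315597372541108224), (nat_lit 38, nat_lit 12699880979077791744)], FastCell.sprN 57 [(nat_lit 17, nat_lit 98064141779992576), (nat_lit 24, nat_lit 8127723241461514240), (nat_lit 45, nat_lit 4395907292503244800), (nat_lit 52, nat_lit 1537125481940582400)], FastCell.sprN 57 [(nat_lit 11, nat_lit 167549632375685120), (nat_lit 17, nat_lit 98064141779992576), (nat_lit 21, nat_lit 348910606117502976), (nat_lit 24, nat_lit 8127723241461514240), (nat_lit 26, nat_lit 5188041025414758400), (nat_lit 28, nat_lit 69917500954902528),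 (nat_lit 32, nat_lit 7960167926844096512), (nat_lit 33, nat_lit 17315597372541108224), (nat_lit 38, nat_lit 12699880979077791744), (nat_lit 45, nat_lit 4395907292503244800), (nat_lit 52, nat_lit 1537125481940582400)]), (FastCell.sprN 57 [(nat_lit 5, nat_lit 70664482852433821696), (nat_lit 7, nat_lit 55012600364759252992), (nat_lit 18, nat_lit 21376814739210895360), (nat_lit 24, nat_lit 278403951613706240), (nat_lit 35, nat_lit 14126351663312666624)], FastCell.sprN 57 [(nat_lit 6, nat_lit 125675153125462245376), (nat_lit 11, nat_lit 119315979263016960), (nat_lit 29, nat_lit 42615986418440208384), (nat_lit 39, nat_lit 16699522446797045760), (nat_lit 46, nat_lit 125597898777762463744), (nat_lit 53, nat_lit 43918062380145180672)], FastCell.sprN 57 [(nat_lit 5, nat_lit 70664482852433821696), (nat_lit 6, nat_lit 125675153125462245376), (nat_lit 7, nat_lit 55012600364759252992), (nat_lit 11, nat_lit 119315979263016960), (nat_lit 18, nat_lit 21376814739210895360), (nat_lit 24, nat_lit 278403951613706240), (nat_lit 29, nat_lit 42615986418440208384), (nat_lit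 35, nat_lit 14126351663312666624), (nat_lit 39, nat_lit 16699522446797045760), (nat_lit 46, nat_lit 125597898777762463744), (nat_lit 53, nat_lit 43918062380145180672)]), (FastCell.sprN 57 [(nat_lit 8, nat_lit 43314638735838019584), (nat_lit 9, nat_lit 9884039711805145088), (nat_lit 11, nat_lit 172671713684590952448), (nat_lit 18, nat_lit 161125187593521070080), (nat_lit 21, nat_lit 222977051745727807488), (nat_lit 26, nat_lit 542652277504023199744), (nat_lit 27, nat_lit 11867525720144084992), (nat_lit 28, nat_lit 903126293242995277824), (nat_lit 40, nat_lit 8349761223398522880), (nat_lit 47, nat_lit 62798949388881231872), (nat_lit 54, nat_lit 21959031190072590336)], FastCell.sprN 57 [(nat_lit 6, nat_lit 46035767883863162880), (nat_lit 10, nat_lit 7161807225336365056), (nat_lit 14, nat_lit 147996075682915418112), (nat_lit 15, nat_lit 382429007636856832), (nat_lit 16, nat_lit 272888502298928480256), (nat_lit 20, nat_lit 216573193679190097920), (nat_lit 22, nat_lit 21354160740934615040), (nat_lit 24, nat_lit 410477598009301401600), (nat_lit 30, nat_lit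 724675418173615374336), (nat_lit 34, nat_lit 638357121329805656064)], FastCell.sprN 57 [(nat_lit 6, nat_lit 46035767883863162880), (nat_lit 8, nat_lit 43314638735838019584), (nat_lit 9, nat_lit 9884039711805145088), (nat_lit 10, nat_lit 7161807225336365056), (nat_lit 11, nat_lit 172671713684590952448), (nat_lit 14, nat_lit 147996075682915418112), (nat_lit 15, nat_lit 382429007636856832), (nat_lit 16, nat_lit 272888502298928480256), (nat_lit 18, nat_lit 161125187593521070080), (nat_lit 20, nat_lit 216573193679190097920), (nat_lit 21, nat_lit 222977051745727807488), (nat_lit 22, nat_lit 21354160740934615040), (nat_lit 24, nat_lit 410477598009301401600), (nat_lit 26, nat_lit 542652277504023199744), (nat_lit 27, nat_lit 11867525720144084992), (nat_lit 28, nat_lit 903126293242995277824), (nat_lit 30, nat_lit 724675418173615374336), (nat_lit 34, nat_lit 638357121329805656064), (nat_lit 40, nat_lit 8349761223398522880), (nat_lit 47, nat_lit 62798949388881231872), (nat_lit 54, nat_lit 21959031190072590336)]), (FastCell.sprN 57 [(nat_lit 18, nat_lit 38972018539318214656),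 (nat_lit 24, nat_lit 32318932279105683456)], FastCell.sprN 57 [(nat_lit 11, nat_lit 13850970976759578624), (nat_lit 29, nat_lit 87687041713465982976)], FastCell.sprN 57 [(nat_lit 11, nat_lit 13850970976759578624), (nat_lit 18, nat_lit 38972018539318214656), (nat_lit 24, nat_lit 32318932279105683456), (nat_lit 29, nat_lit 87687041713465982976)]), z57, (FastCell.sprN 57 [(nat_lit 9, nat_lit 17904518063340912640), (nat_lit 12, nat_lit 9569895053472563200), (nat_lit 18, nat_lit 37369781296635576320)], FastCell.sprN 57 [(nat_lit 2, nat_lit 95607251909214208), (nat_lit 6, nat_lit 18737284287568019456), (nat_lit 25, nat_lit 26701932870324191232)], FastCell.sprN 57 [(nat_lit 2, nat_lit 95607251909214208), (nat_lit 6, nat_lit 18737284287568019456), (nat_lit 9, nat_lit 17904518063340912640), (nat_lit 12, nat_lit 9569895053472563200), (nat_lit 18, nat_lit 37369781296635576320), (nat_lit 25, nat_lit 26701932870324191232)]), z57⟩,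
  ⟨(FastCell.sprN 57 [(nat_lit 11, nat_lit 837278061601751040), (nat_lit 16, nat_lit 39771993087672320), (nat_lit 32, nat_lit 1284213787573878784), (nat_lit 37, nat_lit 584480737492992000), (nat_lit 40, nat_lit 584480737492992000), (nat_lit 44, nat_lit 4395907292503244800), (nat_lit 47, nat_lit 4395907292503244800), (nat_lit 51, nat_lit 1537125481940582400), (nat_lit 54, nat_lit 1537125481940582400)], FastCell.sprN 57 [(nat_lit 24, nat_lit 3878967076999659520)], FastCell.sprN 57 [(nat_lit 11, nat_lit 837278061601751040), (nat_lit 16, nat_lit 39771993087672320), (nat_lit 24, nat_lit 3878967076999659520), (nat_lit 32, nat_lit 1284213787573878784), (nat_lit 37, nat_lit 584480737492992000), (nat_lit 40, nat_lit 584480737492992000), (nat_lit 44, nat_lit 4395907292503244800), (nat_lit 47, nat_lit 4395907292503244800), (nat_lit 51, nat_lit 1537125481940582400), (nat_lit 54, nat_lit 1537125481940582400)]), (FastCell.sprN 57 [(nat_lit 11, nat_lit 46035767883863162880), (nat_lit 19, nat_lit 98664050455276945408), (nat_lit 23, nat_lit 136444251149464240128),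 (nat_lit 42, nat_lit 16699522446797045760), (nat_lit 48, nat_lit 125597898777762463744), (nat_lit 55, nat_lit 43918062380145180672)], FastCell.sprN 57 [(nat_lit 13, nat_lit 43314638735838019584), (nat_lit 16, nat_lit 123773827498591125504), (nat_lit 26, nat_lit 111488525872863903744), (nat_lit 31, nat_lit 141857138073290145792)], FastCell.sprN 57 [(nat_lit 11, nat_lit 46035767883863162880), (nat_lit 13, nat_lit 43314638735838019584), (nat_lit 16, nat_lit 123773827498591125504), (nat_lit 19, nat_lit 98664050455276945408), (nat_lit 23, nat_lit 136444251149464240128), (nat_lit 26, nat_lit 111488525872863903744), (nat_lit 31, nat_lit 141857138073290145792), (nat_lit 42, nat_lit 16699522446797045760), (nat_lit 48, nat_lit 125597898777762463744), (nat_lit 55, nat_lit 43918062380145180672)]), (FastCell.sprN 57 [(nat_lit 16, nat_lit 13850970976759578624), (nat_lit 40, nat_lit 8349761223398522880), (nat_lit 47, nat_lit 62798949388881231872), (nat_lit 54, nat_lit 21959031190072590336)], FastCell.sprN 57 [(nat_lit 11, nat_lit 3247256890823933952), (nat_lit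 24, nat_lit 29229013904488660992)], FastCell.sprN 57 [(nat_lit 11, nat_lit 3247256890823933952), (nat_lit 16, nat_lit 13850970976759578624), (nat_lit 24, nat_lit 29229013904488660992), (nat_lit 40, nat_lit 8349761223398522880), (nat_lit 47, nat_lit 62798949388881231872), (nat_lit 54, nat_lit 21959031190072590336)]), z57, (FastCell.sprN 57 [(nat_lit 3, nat_lit 1790451806334091264), (nat_lit 6, nat_lit 95607251909214208), (nat_lit 11, nat_lit 5338540185233653760)], FastCell.sprN 57 [(nat_lit 1, nat_lit 2471009927951286272), (nat_lit 18, nat_lit 2966881430036021248)], FastCell.sprN 57 [(nat_lit 1, nat_lit 2471009927951286272), (nat_lit 3, nat_lit 1790451806334091264), (nat_lit 6, nat_lit 95607251909214208), (nat_lit 11, nat_lit 5338540185233653760), (nat_lit 18, nat_lit 2966881430036021248)]), z57, z57⟩⟩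

theorem eFsn : vfam B 3 s sn = some Fsn := by decide +kernel

theorem fitsn : famFits 162 57 4722366482869645213696 47220265384565300831338 318289194332078162217408372 Fsn = true := by decide +kernel

/-- Data. -/
noncomputable def Fsp : VFam := ⟨⟨(FastCell.sprN 57 [(nat_lit 11, nat_lit 4611686018427387904), (nat_lit 40, nat_lit 3414539197625499648), (nat_lit 43, nat_lit 3191159038775656448), (nat_lit 47, nat_lit 46331879027906543616), (nat_lit 49, nat_lit 43300833871282569216)], FastCell.sprN 57 [(nat_lit 23, nat_lit 3247256890823933952)], FastCell.sprN 57 [(nat_lit 11, nat_lit 4611686018427387904), (nat_lit 23, nat_lit 3247256890823933952), (nat_lit 40, nat_lit 3414539197625499648), (nat_lit 43, nat_lit 3191159038775656448), (nat_lit 47, nat_lit 46331879027906543616), (nat_lit 49, nat_lit 43300833871282569216)]), (FastCell.sprN 57 [(nat_lit 42, nat_lit 6382318077551312896), (nat_lit 48, nat_lit 86601667742565138432)], FastCell.sprN 57 [(nat_lit 16, nat_lit 6494513781647867904)], FastCell.sprN 57 [(nat_lit 16, nat_lit 6494513781647867904), (nat_lit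 42, nat_lit 6382318077551312896), (nat_lit 48, nat_lit 86601667742565138432)]), (FastCell.sprN 57 [(nat_lit 40, nat_lit 3191159038775656448), (nat_lit 41, nat_lit 319114271235942383616), (nat_lit 47, nat_lit 43300833871282569216)], FastCell.sprN 57 [(nat_lit 11, nat_lit 3247256890823933952)], FastCell.sprN 57 [(nat_lit 11, nat_lit 3247256890823933952), (nat_lit 40, nat_lit 3191159038775656448), (nat_lit 41, nat_lit 319114271235942383616), (nat_lit 47, nat_lit 43300833871282569216)]), z57, z57, z57, z57⟩,
  ⟨(FastCell.sprN 57 [(nat_lit 11, nat_lit 3774407956825636864), (nat_lit 24, nat_lit 3878967076999659520), (nat_lit 36, nat_lit 3191159038775656448), (nat_lit 43, nat_lit 43300833871282569216)], FastCell.sprN 57 [(nat_lit 16, nat_lit 39771993087672320), (nat_lit 23, nat_lit 3247256890823933952), (nat_lit 32, nat_lit 1284213787573878784), (nat_lit 37, nat_lit 3414539197625499648), (nat_lit 44, nat_lit 46331879027906543616)], FastCell.sprN 57 [(nat_lit 11, nat_lit 3774407956825636864), (nat_lit 16, nat_lit 39771993087672320), (nat_lit 23, nat_lit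 3247256890823933952), (nat_lit 24, nat_lit 3878967076999659520), (nat_lit 32, nat_lit 1284213787573878784), (nat_lit 36, nat_lit 3191159038775656448), (nat_lit 37, nat_lit 3414539197625499648), (nat_lit 43, nat_lit 43300833871282569216), (nat_lit 44, nat_lit 46331879027906543616)]), (FastCell.sprN 57 [(nat_lit 13, nat_lit 43314638735838019584), (nat_lit 16, nat_lit 117279313716943257600), (nat_lit 26, nat_lit 111488525872863903744), (nat_lit 31, nat_lit 141857138073290145792)], FastCell.sprN 57 [(nat_lit 11, nat_lit 46035767883863162880), (nat_lit 19, nat_lit 98664050455276945408), (nat_lit 23, nat_lit 136444251149464240128)], FastCell.sprN 57 [(nat_lit 11, nat_lit 46035767883863162880), (nat_lit 13, nat_lit 43314638735838019584), (nat_lit 16, nat_lit 117279313716943257600), (nat_lit 19, nat_lit 98664050455276945408), (nat_lit 23, nat_lit 136444251149464240128), (nat_lit 26, nat_lit 111488525872863903744), (nat_lit 31, nat_lit 141857138073290145792)]), (FastCell.sprN 57 [(nat_lit 24, nat_lit 29229013904488660992)], FastCell.sprN 57 [(nat_lit 16,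 nat_lit 13850970976759578624)], FastCell.sprN 57 [(nat_lit 16, nat_lit 13850970976759578624), (nat_lit 24, nat_lit 29229013904488660992)]), z57, (FastCell.sprN 57 [(nat_lit 1, nat_lit 2471009927951286272), (nat_lit 18, nat_lit 2966881430036021248)], FastCell.sprN 57 [(nat_lit 3, nat_lit 1790451806334091264), (nat_lit 6, nat_lit 95607251909214208), (nat_lit 11, nat_lit 5338540185233653760)], FastCell.sprN 57 [(nat_lit 1, nat_lit 2471009927951286272), (nat_lit 3, nat_lit 1790451806334091264), (nat_lit 6, nat_lit 95607251909214208), (nat_lit 11, nat_lit 5338540185233653760), (nat_lit 18, nat_lit 2966881430036021248)]), z57, z57⟩,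
  ⟨(FastCell.sprN 57 [(nat_lit 11, nat_lit 167549632375685120), (nat_lit 21, nat_lit 348910606117502976), (nat_lit 26, nat_lit 5188041025414758400), (nat_lit 28, nat_lit 69917500954902528), (nat_lit 32, nat_lit 7960167926844096512), (nat_lit 33, nat_lit 17315597372541108224), (nat_lit 38, nat_lit 13060981557720940544)], FastCell.sprN 57 [(nat_lit 17, nat_lit 98064141779992576), (nat_lit 24, nat_lit 8127723241461514240), (nat_lit 45, nat_lit 3031045156623974400)], FastCell.sprN 57 [(nat_lit 11, nat_lit 167549632375685120), (nat_lit 17, nat_lit 98064141779992576), (nat_lit 21, nat_lit 348910606117502976), (nat_lit 24, nat_lit 8127723241461514240), (nat_lit 26, nat_lit 5188041025414758400), (nat_lit 28, nat_lit 69917500954902528), (nat_lit 32, nat_lit 7960167926844096512), (nat_lit 33, nat_lit 17315597372541108224), (nat_lit 38, nat_lit 13060981557720940544), (nat_lit 45, nat_lit 3031045156623974400)]), (FastCell.sprN 57 [(nat_lit 5, nat_lit 70664482852433821696), (nat_lit 7, nat_lit 55012600364759252992), (nat_lit 18, nat_lit 21376814739210895360),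 (nat_lit 24, nat_lit 278403951613706240), (nat_lit 35, nat_lit 14126351663312666624)], FastCell.sprN 57 [(nat_lit 6, nat_lit 125675153125462245376), (nat_lit 11, nat_lit 119315979263016960), (nat_lit 29, nat_lit 42615986418440208384), (nat_lit 39, nat_lit 6382318077551312896), (nat_lit 46, nat_lit 86601667742565138432)], FastCell.sprN 57 [(nat_lit 5, nat_lit 70664482852433821696), (nat_lit 6, nat_lit 125675153125462245376), (nat_lit 7, nat_lit 55012600364759252992), (nat_lit 11, nat_lit 119315979263016960), (nat_lit 18, nat_lit 21376814739210895360), (nat_lit 24, nat_lit 278403951613706240), (nat_lit 29, nat_lit 42615986418440208384), (nat_lit 35, nat_lit 14126351663312666624), (nat_lit 39, nat_lit 6382318077551312896), (nat_lit 46, nat_lit 86601667742565138432)]), (FastCell.sprN 57 [(nat_lit 8, nat_lit 43314638735838019584), (nat_lit 9, nat_lit 9884039711805145088), (nat_lit 11, nat_lit 172671713684590952448), (nat_lit 18, nat_lit 161125187593521070080), (nat_lit 21, nat_lit 222977051745727807488), (nat_lit 26, nat_lit 542652277504023199744), (nat_lit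 27, nat_lit 11867525720144084992), (nat_lit 28, nat_lit 903126293242995277824), (nat_lit 40, nat_lit 3191159038775656448), (nat_lit 41, nat_lit 319114271235942383616), (nat_lit 47, nat_lit 43300833871282569216)], FastCell.sprN 57 [(nat_lit 6, nat_lit 46035767883863162880), (nat_lit 10, nat_lit 7161807225336365056), (nat_lit 14, nat_lit 147996075682915418112), (nat_lit 15, nat_lit 382429007636856832), (nat_lit 16, nat_lit 272888502298928480256), (nat_lit 20, nat_lit 216573193679190097920), (nat_lit 22, nat_lit 21354160740934615040), (nat_lit 24, nat_lit 410477598009301401600), (nat_lit 30, nat_lit 724675418173615374336), (nat_lit 34, nat_lit 638357121329805656064), (nat_lit 39, nat_lit 319114271235942383616)], FastCell.sprN 57 [(nat_lit 6, nat_lit 46035767883863162880), (nat_lit 8, nat_lit 43314638735838019584), (nat_lit 9, nat_lit 9884039711805145088), (nat_lit 10, nat_lit 7161807225336365056), (nat_lit 11, nat_lit 172671713684590952448), (nat_lit 14, nat_lit 147996075682915418112), (nat_lit 15, nat_lit 382429007636856832), (nat_lit 16, nat_lit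 272888502298928480256), (nat_lit 18, nat_lit 161125187593521070080), (nat_lit 20, nat_lit 216573193679190097920), (nat_lit 21, nat_lit 222977051745727807488), (nat_lit 22, nat_lit 21354160740934615040), (nat_lit 24, nat_lit 410477598009301401600), (nat_lit 26, nat_lit 542652277504023199744), (nat_lit 27, nat_lit 11867525720144084992), (nat_lit 28, nat_lit 903126293242995277824), (nat_lit 30, nat_lit 724675418173615374336), (nat_lit 34, nat_lit 638357121329805656064), (nat_lit 39, nat_lit 319114271235942383616), (nat_lit 40, nat_lit 3191159038775656448), (nat_lit 41, nat_lit 319114271235942383616), (nat_lit 47, nat_lit 43300833871282569216)]), (FastCell.sprN 57 [(nat_lit 18, nat_lit 38972018539318214656), (nat_lit 24, nat_lit 32318932279105683456)], FastCell.sprN 57 [(nat_lit 11, nat_lit 13850970976759578624), (nat_lit 29, nat_lit 87687041713465982976)], FastCell.sprN 57 [(nat_lit 11, nat_lit 13850970976759578624), (nat_lit 18, nat_lit 38972018539318214656), (nat_lit 24, nat_lit 32318932279105683456), (nat_lit 29, nat_lit 87687041713465982976)]),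 z57, (FastCell.sprN 57 [(nat_lit 9, nat_lit 17904518063340912640), (nat_lit 12, nat_lit 9569895053472563200), (nat_lit 18, nat_lit 37369781296635576320)], FastCell.sprN 57 [(nat_lit 2, nat_lit 95607251909214208), (nat_lit 6, nat_lit 18737284287568019456), (nat_lit 25, nat_lit 26701932870324191232)], FastCell.sprN 57 [(nat_lit 2, nat_lit 95607251909214208), (nat_lit 6, nat_lit 18737284287568019456), (nat_lit 9, nat_lit 17904518063340912640), (nat_lit 12, nat_lit 9569895053472563200), (nat_lit 18, nat_lit 37369781296635576320), (nat_lit 25, nat_lit 26701932870324191232)]), z57⟩,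
  ⟨(FastCell.sprN 57 [(nat_lit 11, nat_lit 837278061601751040), (nat_lit 16, nat_lit 39771993087672320), (nat_lit 32, nat_lit 1284213787573878784), (nat_lit 37, nat_lit 223380158849843200), (nat_lit 40, nat_lit 223380158849843200), (nat_lit 44, nat_lit 3031045156623974400), (nat_lit 47, nat_lit 3031045156623974400)], FastCell.sprN 57 [(nat_lit 24, nat_lit 3878967076999659520)], FastCell.sprN 57 [(nat_lit 11, nat_lit 837278061601751040), (nat_lit 16, nat_lit 39771993087672320), (nat_lit 24, nat_lit 3878967076999659520), (nat_lit 32, nat_lit 1284213787573878784), (nat_lit 37, nat_lit 223380158849843200), (nat_lit 40, nat_lit 223380158849843200), (nat_lit 44, nat_lit 3031045156623974400), (nat_lit 47, nat_lit 3031045156623974400)]), (FastCell.sprN 57 [(nat_lit 11, nat_lit 46035767883863162880), (nat_lit 19, nat_lit 98664050455276945408), (nat_lit 23, nat_lit 136444251149464240128), (nat_lit 42, nat_lit 6382318077551312896), (nat_lit 48, nat_lit 86601667742565138432)], FastCell.sprN 57 [(nat_lit 13, nat_lit 43314638735838019584), (nat_lit 16, nat_lit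 123773827498591125504), (nat_lit 26, nat_lit 111488525872863903744), (nat_lit 31, nat_lit 141857138073290145792)], FastCell.sprN 57 [(nat_lit 11, nat_lit 46035767883863162880), (nat_lit 13, nat_lit 43314638735838019584), (nat_lit 16, nat_lit 123773827498591125504), (nat_lit 19, nat_lit 98664050455276945408), (nat_lit 23, nat_lit 136444251149464240128), (nat_lit 26, nat_lit 111488525872863903744), (nat_lit 31, nat_lit 141857138073290145792), (nat_lit 42, nat_lit 6382318077551312896), (nat_lit 48, nat_lit 86601667742565138432)]), (FastCell.sprN 57 [(nat_lit 16, nat_lit 13850970976759578624), (nat_lit 40, nat_lit 3191159038775656448), (nat_lit 41, nat_lit 319114271235942383616), (nat_lit 47, nat_lit 43300833871282569216)], FastCell.sprN 57 [(nat_lit 11, nat_lit 3247256890823933952), (nat_lit 24, nat_lit 29229013904488660992)], FastCell.sprN 57 [(nat_lit 11, nat_lit 3247256890823933952), (nat_lit 16, nat_lit 13850970976759578624), (nat_lit 24, nat_lit 29229013904488660992), (nat_lit 40, nat_lit 3191159038775656448), (nat_lit 41, nat_lit 319114271235942383616),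 (nat_lit 47, nat_lit 43300833871282569216)]), z57, (FastCell.sprN 57 [(nat_lit 3, nat_lit 1790451806334091264), (nat_lit 6, nat_lit 95607251909214208), (nat_lit 11, nat_lit 5338540185233653760)], FastCell.sprN 57 [(nat_lit 1, nat_lit 2471009927951286272), (nat_lit 18, nat_lit 2966881430036021248)], FastCell.sprN 57 [(nat_lit 1, nat_lit 2471009927951286272), (nat_lit 3, nat_lit 1790451806334091264), (nat_lit 6, nat_lit 95607251909214208), (nat_lit 11, nat_lit 5338540185233653760), (nat_lit 18, nat_lit 2966881430036021248)]), z57, z57⟩⟩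

theorem eFsp : vfam B 3 s sp = some Fsp := by decide +kernel

theorem fitsp : famFits 162 57 4722366482869645213696 47220265384565300831338 318289194332078162217408372 Fsp = true := by decide +kernel


end Vale.Agent.P237.Small.N5W4
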